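import Vale.Agent.P219.Nine.Defs

/-!
# P219: convexity of the multiplier for the calibration in dimension nine

Generated positivity certificates: each polynomial is a combination of products of nonnegative factors.
-/

namespace Vale.Agent.P219.Nine

theorem cv_0 {b : ℝ} (h0 : 0 ≤ b) (h1 : b ≤ 1) : 0 ≤ (264000 * b + 6206784 * b ^ 2 + 13790720 * b ^ 3 - 1199360 * b ^ 4 - 22095616 * b ^ 5 - 9032448 * b ^ 6
      + 11956992 * b ^ 7 + 9926400 * b ^ 8 + 1985280 * b ^ 9) := by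
  have key : ∀ u : ℝ, 0 ≤ u → 0 ≤ 264000 * b * u ^ 8 + 8318784 * b ^ 2 * u ^ 7 + 64630208 * b ^ 3 * u ^ 6 + 226671424 * b ^ 4 * u ^ 5
      + 414485824 * b ^ 5 * u ^ 4 + 398427328 * b ^ 6 * u ^ 3 + 184887616 * b ^ 7 * u ^ 2 + 40667584 * b ^ 8 * u
      + 11802752 * b ^ 9 :=
    fun u hu => by positivity
  refine (key (1 - b) (sub_nonneg.2 h1)).trans (le_of_eq ?_)
  ring

theorem cv_1 {b : ℝ} (h0 : 0 ≤ b) (h1 : b ≤ 1) : 0 ≤ (132000 + 7085856 * b + 82128288 * b ^ 2 + 160542240 * b ^ 3 - 32605440 * b ^ 4 - 270287616 * b ^ 5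
      - 97771008 * b ^ 6 + 151425024 * b ^ 7 + 120705024 * b ^ 8 + 23823360 * b ^ 9) := by
  have key : ∀ u : ℝ, 0 ≤ u → 0 ≤ 132000 * u ^ 9 + 8273856 * b * u ^ 8 + 143567136 * b ^ 2 * u ^ 7 + 944932224 * b ^ 3 * u ^ 6
      + 3068781984 * b ^ 4 * u ^ 5 + 5361950784 * b ^ 5 * u ^ 4 + 4988254944 * b ^ 6 * u ^ 3 + 2246315520 * b ^ 7 * u ^ 2
      + 482090688 * b ^ 8 * u + 145177728 * b ^ 9 :=
    fun u hu => by positivity
  refine (key (1 - b) (sub_nonneg.2 h1)).trans (le_of_eq ?_)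
  ring

theorem cv_2 {b : ℝ} (h0 : 0 ≤ b) (h1 : b ≤ 1) : 0 ≤ (3080928 + 60967456 * b + 460242848 * b ^ 2 + 786283616 * b ^ 3 - 275952640 * b ^ 4 - 1417190912 * b ^ 5
      - 437253888 * b ^ 6 + 829876992 * b ^ 7 + 632907264 * b ^ 8 + 123087360 * b ^ 9) := by
  have key : ∀ u : ℝ, 0 ≤ u → 0 ≤ 3080928 * u ^ 9 + 88695808 * b * u ^ 8 + 1058895904 * b ^ 2 * u ^ 7 + 5973870272 * b ^ 3 * u ^ 6
      + 17909223328 * b ^ 4 * u ^ 5 + 29761718656 * b ^ 5 * u ^ 4 + 26641603552 * b ^ 6 * u ^ 3 + 11532799680 * b ^ 7 * u ^ 2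
      + 2387242368 * b ^ 8 * u + 766049024 * b ^ 9 :=
    fun u hu => by positivity
  refine (key (1 - b) (sub_nonneg.2 h1)).trans (le_of_eq ?_)
  ring

theorem cv_3 {b : ℝ} (h0 : 0 ≤ b) (h1 : b ≤ 1) : 0 ≤ (19700480 + 251240576 * b + 1410489472 * b ^ 2 + 2089533184 * b ^ 3 - 1149292800 * b ^ 4 - 4142594304 * b ^ 5
      - 1023951360 * b ^ 6 + 2569167360 * b ^ 7 + 1867751424 * b ^ 8 + 357350400 * b ^ 9) := by
  have key : ∀ u : ℝ, 0 ≤ u → 0 ≤ 19700480 * u ^ 9 + 428544896 * b * u ^ 8 + 4129631360 * b ^ 2 * u ^ 7 + 20652535936 * b ^ 3 * u ^ 6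
      + 57559917952 * b ^ 4 * u ^ 5 + 90890171776 * b ^ 5 * u ^ 4 + 77794851200 * b ^ 6 * u ^ 3 + 31856049536 * b ^ 7 * u ^ 2
      + 6215245184 * b ^ 8 * u + 2249394432 * b ^ 9 :=
    fun u hu => by positivity
  refine (key (1 - b) (sub_nonneg.2 h1)).trans (le_of_eq ?_)
  ring

theorem cv_4 {b : ℝ} (h0 : 0 ≤ b) (h1 : b ≤ 1) : 0 ≤ (56668608 + 562731392 * b + 2549246080 * b ^ 2 + 3234397376 * b ^ 3 - 2712199680 * b ^ 4 - 7339180032 * b ^ 5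
      - 1278309888 * b ^ 6 + 4911436800 * b ^ 7 + 3391255296 * b ^ 8 + 637274880 * b ^ 9) := by
  have key : ∀ u : ℝ, 0 ≤ u → 0 ≤ 56668608 * u ^ 9 + 1072748864 * b * u ^ 8 + 9091167104 * b ^ 2 * u ^ 7 + 41595761984 * b ^ 3 * u ^ 6
      + 108881554816 * b ^ 4 * u ^ 5 + 163370837056 * b ^ 5 * u ^ 4 + 132427654528 * b ^ 6 * u ^ 3
      + 49766107328 * b ^ 7 * u ^ 2 + 8724456128 * b ^ 8 * u + 4013320832 * b ^ 9 :=
    fun u hu => by positivity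
  refine (key (1 - b) (sub_nonneg.2 h1)).trans (le_of_eq ?_)
  ring

theorem cv_5 {b : ℝ} (h0 : 0 ≤ b) (h1 : b ≤ 1) : 0 ≤ (83025568 + 705935648 * b + 2735878816 * b ^ 2 + 2905225248 * b ^ 3 - 3768514560 * b ^ 4 - 7994492928 * b ^ 5
      - 663429120 * b ^ 6 + 5934034944 * b ^ 7 + 3878443008 * b ^ 8 + 714700800 * b ^ 9) := by
  have key : ∀ u : ℝ, 0 ≤ u → 0 ≤ 83025568 * u ^ 9 + 1453165760 * b * u ^ 8 + 11372284448 * b ^ 2 * u ^ 7 + 48796722816 * b ^ 3 * u ^ 6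
      + 121109909920 * b ^ 4 * u ^ 5 + 172373788480 * b ^ 5 * u ^ 4 + 130040261088 * b ^ 6 * u ^ 3
      + 42078596864 * b ^ 7 * u ^ 2 + 5912899520 * b ^ 8 * u + 4530807424 * b ^ 9 :=
    fun u hu => by positivity
  refine (key (1 - b) (sub_nonneg.2 h1)).trans (le_of_eq ?_)
  ring

theorem cv_6 {b : ℝ} (h0 : 0 ≤ b) (h1 : b ≤ 1) : 0 ≤ (62378336 + 482651936 * b + 1678893472 * b ^ 2 + 1430840288 * b ^ 3 - 2994688000 * b ^ 4 - 5146296320 * b ^ 5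
      + 207716352 * b ^ 6 + 4423323648 * b ^ 7 + 2728568832 * b ^ 8 + 492349440 * b ^ 9) := by
  have key : ∀ u : ℝ, 0 ≤ u → 0 ≤ 62378336 * u ^ 9 + 1044056960 * b * u ^ 8 + 7785729056 * b ^ 2 * u ^ 7 + 31937129024 * b ^ 3 * u ^ 6
      + 75735295392 * b ^ 4 * u ^ 5 + 101749445376 * b ^ 5 * u ^ 4 + 69322016992 * b ^ 6 * u ^ 3 + 16701056320 * b ^ 7 * u ^ 2
      + 1399656448 * b ^ 8 * u + 3365737984 * b ^ 9 :=
    fun u hu => by positivity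
  refine (key (1 - b) (sub_nonneg.2 h1)).trans (le_of_eq ?_)
  ring

theorem cv_7 {b : ℝ} (h0 : 0 ≤ b) (h1 : b ≤ 1) : 0 ≤ (23001792 + 169270592 * b + 550753600 * b ^ 2 + 363983552 * b ^ 3 - 1207357440 * b ^ 4 - 1735200768 * b ^ 5
      + 401645568 * b ^ 6 + 1859395584 * b ^ 7 + 1079992320 * b ^ 8 + 190586880 * b ^ 9) := by
  have key : ∀ u : ℝ, 0 ≤ u → 0 ≤ 23001792 * u ^ 9 + 376286720 * b * u ^ 8 + 2732982848 * b ^ 2 * u ^ 7 + 10890985856 * b ^ 3 * u ^ 6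
      + 24919748416 * b ^ 4 * u ^ 5 + 31711308544 * b ^ 5 * u ^ 4 + 19354618816 * b ^ 6 * u ^ 3 + 3172773248 * b ^ 7 * u ^ 2
      + 626487296 * b ^ 8 * u + 1696071680 * b ^ 9 :=
    fun u hu => by positivity
  refine (key (1 - b) (sub_nonneg.2 h1)).trans (le_of_eq ?_)
  ring

theorem cv_8 {b : ℝ} (h0 : 0 ≤ b) (h1 : b ≤ 1) : 0 ≤ (4129024 + 28903168 * b + 88631552 * b ^ 2 + 57942784 * b ^ 3 - 171745280 * b ^ 4 - 217415680 * b ^ 5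
      + 133373952 * b ^ 6 + 337428480 * b ^ 7 + 184233984 * b ^ 8 + 31764480 * b ^ 9) := by
  have key : ∀ u : ℝ, 0 ≤ u → 0 ≤ 4129024 * u ^ 9 + 66064384 * b * u ^ 8 + 468501760 * b ^ 2 * u ^ 7 + 1834490368 * b ^ 3 * u ^ 6
      + 4176008448 * b ^ 4 * u ^ 5 + 5438582784 * b ^ 5 * u ^ 4 + 3772633856 * b ^ 6 * u ^ 3 + 1403941376 * b ^ 7 * u ^ 2
      + 767287808 * b ^ 8 * u + 477246464 * b ^ 9 :=
    fun u hu => by positivity
  refine (key (1 - b) (sub_nonneg.2 h1)).trans (le_of_eq ?_)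
  ring

/-- `phiN' (1+b) - 4 phiN`. -/
noncomputable def dphiN (b : ℝ) : ℝ :=
  660000 + 3300000 * b + 6996000 * b ^ 2 + 15095712 * b ^ 3 + 23234560 * b ^ 4 + 3207680 * b ^ 5
  - 25978112 * b ^ 6 - 12924672 * b ^ 7 + 13295616 * b ^ 8 + 11911680 * b ^ 9 + 2382336 * b ^ 10

theorem phi_tangent_nonneg {a b : ℝ} (ha0 : 0 ≤ a) (ha1 : a ≤ 1) (h0 : 0 ≤ b) (h1 : b ≤ 1) :
    0 ≤ phiN a * (1 + b) ^ 5 - phiN b * (1 + a) ^ 4 * (1 + b)
      - dphiN b * (1 + a) ^ 4 * (a - b) := by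
  refine le_of_le_of_eq ?_ (show (a - b) ^ 2 * ((264000 * b + 6206784 * b ^ 2 + 13790720 * b ^ 3 - 1199360 * b ^ 4 - 22095616 * b ^ 5 - 9032448 * b ^ 6
      + 11956992 * b ^ 7 + 9926400 * b ^ 8 + 1985280 * b ^ 9) * (1 - a) ^ 8
      + (132000 + 7085856 * b + 82128288 * b ^ 2 + 160542240 * b ^ 3 - 32605440 * b ^ 4 - 270287616 * b ^ 5
      - 97771008 * b ^ 6 + 151425024 * b ^ 7 + 120705024 * b ^ 8 + 23823360 * b ^ 9) * a * (1 - a) ^ 7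
      + (3080928 + 60967456 * b + 460242848 * b ^ 2 + 786283616 * b ^ 3 - 275952640 * b ^ 4 - 1417190912 * b ^ 5
      - 437253888 * b ^ 6 + 829876992 * b ^ 7 + 632907264 * b ^ 8 + 123087360 * b ^ 9) * a ^ 2 * (1 - a) ^ 6
      + (19700480 + 251240576 * b + 1410489472 * b ^ 2 + 2089533184 * b ^ 3 - 1149292800 * b ^ 4 - 4142594304 * b ^ 5
      - 1023951360 * b ^ 6 + 2569167360 * b ^ 7 + 1867751424 * b ^ 8 + 357350400 * b ^ 9) * a ^ 3 * (1 - a) ^ 5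
      + (56668608 + 562731392 * b + 2549246080 * b ^ 2 + 3234397376 * b ^ 3 - 2712199680 * b ^ 4 - 7339180032 * b ^ 5
      - 1278309888 * b ^ 6 + 4911436800 * b ^ 7 + 3391255296 * b ^ 8 + 637274880 * b ^ 9) * a ^ 4 * (1 - a) ^ 4
      + (83025568 + 705935648 * b + 2735878816 * b ^ 2 + 2905225248 * b ^ 3 - 3768514560 * b ^ 4 - 7994492928 * b ^ 5
      - 663429120 * b ^ 6 + 5934034944 * b ^ 7 + 3878443008 * b ^ 8 + 714700800 * b ^ 9) * a ^ 5 * (1 - a) ^ 3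
      + (62378336 + 482651936 * b + 1678893472 * b ^ 2 + 1430840288 * b ^ 3 - 2994688000 * b ^ 4 - 5146296320 * b ^ 5
      + 207716352 * b ^ 6 + 4423323648 * b ^ 7 + 2728568832 * b ^ 8 + 492349440 * b ^ 9) * a ^ 6 * (1 - a) ^ 2
      + (23001792 + 169270592 * b + 550753600 * b ^ 2 + 363983552 * b ^ 3 - 1207357440 * b ^ 4 - 1735200768 * b ^ 5
      + 401645568 * b ^ 6 + 1859395584 * b ^ 7 + 1079992320 * b ^ 8 + 190586880 * b ^ 9) * a ^ 7 * (1 - a)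
      + (4129024 + 28903168 * b + 88631552 * b ^ 2 + 57942784 * b ^ 3 - 171745280 * b ^ 4 - 217415680 * b ^ 5
      + 133373952 * b ^ 6 + 337428480 * b ^ 7 + 184233984 * b ^ 8 + 31764480 * b ^ 9) * a ^ 8) = _ by
    simp only [dphiN, phiN]; ring)
  have hu : 0 ≤ 1 - a := sub_nonneg.2 ha1
  have := cv_0 h0 h1
  have := cv_1 h0 h1
  have := cv_2 h0 h1
  have := cv_3 h0 h1
  have := cv_4 h0 h1
  have := cv_5 h0 h1
  have := cv_6 h0 h1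
  have := cv_7 h0 h1
  have := cv_8 h0 h1
  refine mul_nonneg (sq_nonneg _) ?_
  positivity

end Vale.Agent.P219.Nine
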