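import Vale.Agent.P219.Nine.Defs

/-!
# P219: the diagonal edge for the calibration in dimension nine

Generated positivity certificates: each polynomial is a combination of products of nonnegative factors.
-/

namespace Vale.Agent.P219.Nine

theorem phiN_nonneg_aux {b : ℝ} (h0 : 0 ≤ b) (h1 : b ≤ 1) : 0 ≤ (660000 * b + 2640000 * b ^ 2 + 4092000 * b ^ 3 + 4796928 * b ^ 4 + 4646912 * b ^ 5 - 239872 * b ^ 6
      - 3642624 * b ^ 7 - 249600 * b ^ 8 + 1588224 * b ^ 9 + 397056 * b ^ 10) := by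
  have key : ∀ u : ℝ, 0 ≤ u → 0 ≤ 660000 * b * u ^ 9 + 8580000 * b ^ 2 * u ^ 8 + 48972000 * b ^ 3 * u ^ 7 + 162800928 * b ^ 4 * u ^ 6
      + 350360480 * b ^ 5 * u ^ 5 + 506128608 * b ^ 6 * u ^ 4 + 484305568 * b ^ 7 * u ^ 3 + 289418336 * b ^ 8 * u ^ 2
      + 96921792 * b ^ 9 * u + 14689024 * b ^ 10 :=
    fun u hu => by positivity
  refine (key (1 - b) (sub_nonneg.2 h1)).trans (le_of_eq ?_)
  ring

theorem rd_0 {b : ℝ} (h0 : 0 ≤ b) (h1 : b ≤ 1) : 0 ≤ (2640000 * b + 10560000 * b ^ 2 + 16368000 * b ^ 3 + 19187712 * b ^ 4 + 18587648 * b ^ 5 - 959488 * b ^ 6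
      - 14570496 * b ^ 7 - 998400 * b ^ 8 + 6352896 * b ^ 9 + 1588224 * b ^ 10) := by
  have key : ∀ u : ℝ, 0 ≤ u → 0 ≤ 2640000 * b * u ^ 9 + 34320000 * b ^ 2 * u ^ 8 + 195888000 * b ^ 3 * u ^ 7 + 651203712 * b ^ 4 * u ^ 6
      + 1401441920 * b ^ 5 * u ^ 5 + 2024514432 * b ^ 6 * u ^ 4 + 1937222272 * b ^ 7 * u ^ 3 + 1157673344 * b ^ 8 * u ^ 2
      + 387687168 * b ^ 9 * u + 58756096 * b ^ 10 :=
    fun u hu => by positivity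
  refine (key (1 - b) (sub_nonneg.2 h1)).trans (le_of_eq ?_)
  ring

theorem rd_1 {b : ℝ} (h0 : 0 ≤ b) (h1 : b ≤ 1) : 0 ≤ (660000 + 7920000 * b + 25608000 * b ^ 2 + 44003712 * b ^ 3 + 54983072 * b ^ 4 + 36215808 * b ^ 5
      - 16489472 * b ^ 6 - 30139392 * b ^ 7 + 4356096 * b ^ 8 + 14294016 * b ^ 9 + 3176448 * b ^ 10) := by
  have key : ∀ u : ℝ, 0 ≤ u → 0 ≤ 660000 * u ^ 10 + 14520000 * b * u ^ 9 + 126588000 * b ^ 2 * u ^ 8 + 613187712 * b ^ 3 * u ^ 7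
      + 1883913056 * b ^ 4 * u ^ 6 + 3888480192 * b ^ 5 * u ^ 5 + 5458545568 * b ^ 6 * u ^ 4 + 5084380160 * b ^ 7 * u ^ 3
      + 2957827200 * b ^ 8 * u ^ 2 + 968377600 * b ^ 9 * u + 144588288 * b ^ 10 :=
    fun u hu => by positivity
  refine (key (1 - b) (sub_nonneg.2 h1)).trans (le_of_eq ?_)
  ring

theorem rd_2 {b : ℝ} (h0 : 0 ≤ b) (h1 : b ≤ 1) : 0 ≤ (1320000 + 9636000 * b + 31286784 * b ^ 2 + 59048160 * b ^ 3 + 61277248 * b ^ 4 + 15034624 * b ^ 5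
      - 31329024 * b ^ 6 - 19087872 * b ^ 7 + 12399360 * b ^ 8 + 12705792 * b ^ 9 + 2382336 * b ^ 10) := by
  have key : ∀ u : ℝ, 0 ≤ u → 0 ≤ 1320000 * u ^ 10 + 22836000 * b * u ^ 9 + 177410784 * b ^ 2 * u ^ 8 + 814638432 * b ^ 3 * u ^ 7
      + 2437268320 * b ^ 4 * u ^ 6 + 4921545376 * b ^ 5 * u ^ 5 + 6711099296 * b ^ 6 * u ^ 4 + 6018056736 * b ^ 7 * u ^ 3
      + 3359003872 * b ^ 8 * u ^ 2 + 1061316800 * b ^ 9 * u + 154673408 * b ^ 10 :=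
    fun u hu => by positivity
  refine (key (1 - b) (sub_nonneg.2 h1)).trans (le_of_eq ?_)
  ring

theorem rd_3 {b : ℝ} (h0 : 0 ≤ b) (h1 : b ≤ 1) : 0 ≤ (1529000 + 11485856 * b + 34577392 * b ^ 2 + 49627296 * b ^ 3 + 26055848 * b ^ 4 - 14500352 * b ^ 5
      - 20656640 * b ^ 6 + 1540608 * b ^ 7 + 11412480 * b ^ 8 + 5558784 * b ^ 9 + 794112 * b ^ 10) := by
  have key : ∀ u : ℝ, 0 ≤ u → 0 ≤ 1529000 * u ^ 10 + 26775856 * b * u ^ 9 + 206755096 * b ^ 2 * u ^ 8 + 923217248 * b ^ 3 * u ^ 7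
      + 2627515800 * b ^ 4 * u ^ 6 + 4952867760 * b ^ 5 * u ^ 5 + 6223359976 * b ^ 6 * u ^ 4 + 5116608704 * b ^ 7 * u ^ 3
      + 2630564672 * b ^ 8 * u ^ 2 + 776885248 * b ^ 9 * u + 107424384 * b ^ 10 :=
    fun u hu => by positivity
  refine (key (1 - b) (sub_nonneg.2 h1)).trans (le_of_eq ?_)
  ring

theorem rd_4 {b : ℝ} (h0 : 0 ≤ b) (h1 : b ≤ 1) : 0 ≤ (2222464 + 12013568 * b + 23160576 * b ^ 2 + 14604480 * b ^ 3 - 9573952 * b ^ 4 - 16351872 * b ^ 5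
      - 2026432 * b ^ 6 + 7325376 * b ^ 7 + 4900800 * b ^ 8 + 1191168 * b ^ 9 + 99264 * b ^ 10) := by
  have key : ∀ u : ℝ, 0 ≤ u → 0 ≤ 2222464 * u ^ 10 + 34238208 * b * u ^ 9 + 231293568 * b ^ 2 * u ^ 8 + 899073216 * b ^ 3 * u ^ 7
      + 2217010688 * b ^ 4 * u ^ 6 + 3603661248 * b ^ 5 * u ^ 5 + 3885429056 * b ^ 6 * u ^ 4 + 2728206336 * b ^ 7 * u ^ 3
      + 1195279872 * b ^ 8 * u ^ 2 + 303522816 * b ^ 9 * u + 37565440 * b ^ 10 :=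
    fun u hu => by positivity
  refine (key (1 - b) (sub_nonneg.2 h1)).trans (le_of_eq ?_)
  ring

theorem rd_5 {b : ℝ} (h0 : 0 ≤ b) (h1 : b ≤ 1) : 0 ≤ (1656528 + 6686912 * b + 7963664 * b ^ 2 - 1350720 * b ^ 3 - 8684176 * b ^ 4 - 3133312 * b ^ 5
      + 3884592 * b ^ 6 + 3511104 * b ^ 7 + 992640 * b ^ 8 + 99264 * b ^ 9) := by
  have key : ∀ u : ℝ, 0 ≤ u → 0 ≤ 1656528 * u ^ 9 + 21595664 * b * u ^ 8 + 121093968 * b ^ 2 * u ^ 7 + 380776816 * b ^ 3 * u ^ 6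
      + 733638048 * b ^ 4 * u ^ 5 + 888719616 * b ^ 5 * u ^ 4 + 669838848 * b ^ 6 * u ^ 3 + 303367936 * b ^ 7 * u ^ 2
      + 79759872 * b ^ 8 * u + 11626496 * b ^ 9 :=
    fun u hu => by positivity
  refine (key (1 - b) (sub_nonneg.2 h1)).trans (le_of_eq ?_)
  ring

theorem rd_6 {b : ℝ} (h0 : 0 ≤ b) (h1 : b ≤ 1) : 0 ≤ (937888 + 3564160 * b + 4971504 * b ^ 2 + 3399232 * b ^ 3 + 2413456 * b ^ 4 + 2867712 * b ^ 5
      + 2128656 * b ^ 6 + 694848 * b ^ 7 + 74448 * b ^ 8) := by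
  have key : ∀ u : ℝ, 0 ≤ u → 0 ≤ 937888 * u ^ 8 + 11067264 * b * u ^ 7 + 56181488 * b ^ 2 * u ^ 6 + 160597344 * b ^ 3 * u ^ 5
      + 284379936 * b ^ 4 * u ^ 4 + 323211264 * b ^ 5 * u ^ 3 + 234885632 * b ^ 6 * u ^ 2 + 102486528 * b ^ 7 * u
      + 21051904 * b ^ 8 :=
    fun u hu => by positivity
  refine (key (1 - b) (sub_nonneg.2 h1)).trans (le_of_eq ?_)
  ring

theorem rd_7 {b : ℝ} (h0 : 0 ≤ b) (h1 : b ≤ 1) : 0 ≤ (612128 + 2723456 * b + 5020704 * b ^ 2 + 5140448 * b ^ 3 + 3399392 * b ^ 4 + 1565376 * b ^ 5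
      + 446688 * b ^ 6 + 49632 * b ^ 7) := by
  have key : ∀ u : ℝ, 0 ≤ u → 0 ≤ 612128 * u ^ 7 + 7008352 * b * u ^ 6 + 34216128 * b ^ 2 * u ^ 5 + 92520288 * b ^ 3 * u ^ 4 + 150061824 * b ^ 4 * u ^ 3
      + 146519808 * b ^ 5 * u ^ 2 + 80066560 * b ^ 6 * u + 18957824 * b ^ 7 :=
    fun u hu => by positivity
  refine (key (1 - b) (sub_nonneg.2 h1)).trans (le_of_eq ?_)
  ring

theorem rd_8 {b : ℝ} (h0 : 0 ≤ b) (h1 : b ≤ 1) : 0 ≤ (335016 + 1488960 * b + 2636700 * b ^ 2 + 2357520 * b ^ 3 + 1116720 * b ^ 4 + 272976 * b ^ 5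
      + 31020 * b ^ 6) := by
  have key : ∀ u : ℝ, 0 ≤ u → 0 ≤ 335016 * u ^ 6 + 3499056 * b * u ^ 5 + 15106740 * b ^ 2 * u ^ 4 + 34494240 * b ^ 3 * u ^ 3 + 43924320 * b ^ 4 * u ^ 2
      + 29580672 * b ^ 5 * u + 8238912 * b ^ 6 :=
    fun u hu => by positivity
  refine (key (1 - b) (sub_nonneg.2 h1)).trans (le_of_eq ?_)
  ring

theorem rd_9 {b : ℝ} (h0 : 0 ≤ b) (h1 : b ≤ 1) : 0 ≤ (103400 + 432212 * b + 694848 * b ^ 2 + 525272 * b ^ 3 + 177848 * b ^ 4 + 18612 * b ^ 5) := by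
  have key : ∀ u : ℝ, 0 ≤ u → 0 ≤ 103400 * u ^ 5 + 949212 * b * u ^ 4 + 3457696 * b ^ 2 * u ^ 3 + 6237088 * b ^ 3 * u ^ 2 + 5558784 * b ^ 4 * u
      + 1952192 * b ^ 5 :=
    fun u hu => by positivity
  refine (key (1 - b) (sub_nonneg.2 h1)).trans (le_of_eq ?_)
  ring

theorem rd_10 {b : ℝ} (h0 : 0 ≤ b) (h1 : b ≤ 1) : 0 ≤ (12925 + 51700 * b + 77550 * b ^ 2 + 51700 * b ^ 3 + 12925 * b ^ 4) := by
  have key : ∀ u : ℝ, 0 ≤ u → 0 ≤ 12925 * u ^ 4 + 103400 * b * u ^ 3 + 310200 * b ^ 2 * u ^ 2 + 413600 * b ^ 3 * u + 206800 * b ^ 4 :=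
    fun u hu => by positivity
  refine (key (1 - b) (sub_nonneg.2 h1)).trans (le_of_eq ?_)
  ring

theorem Zdiag_nonneg {t b : ℝ} (ht : 0 ≤ t) (h0 : 0 ≤ b) (h1 : b ≤ 1) :
    0 ≤ (1 + b) ^ 4 * t ^ 3 * T t (2 * b) (b * b)
      + b ^ 2 * (t + 2) ^ 4 * (phiN b - 495000 * t * (1 + b) ^ 4) := by
  refine le_of_le_of_eq ?_ (show (t - 2 * b) ^ 2 * ((2640000 * b + 10560000 * b ^ 2 + 16368000 * b ^ 3 + 19187712 * b ^ 4 + 18587648 * b ^ 5 - 959488 * b ^ 6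
      - 14570496 * b ^ 7 - 998400 * b ^ 8 + 6352896 * b ^ 9 + 1588224 * b ^ 10)
      + (660000 + 7920000 * b + 25608000 * b ^ 2 + 44003712 * b ^ 3 + 54983072 * b ^ 4 + 36215808 * b ^ 5
      - 16489472 * b ^ 6 - 30139392 * b ^ 7 + 4356096 * b ^ 8 + 14294016 * b ^ 9 + 3176448 * b ^ 10) * t
      + (1320000 + 9636000 * b + 31286784 * b ^ 2 + 59048160 * b ^ 3 + 61277248 * b ^ 4 + 15034624 * b ^ 5
      - 31329024 * b ^ 6 - 19087872 * b ^ 7 + 12399360 * b ^ 8 + 12705792 * b ^ 9 + 2382336 * b ^ 10) * t ^ 2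
      + (1529000 + 11485856 * b + 34577392 * b ^ 2 + 49627296 * b ^ 3 + 26055848 * b ^ 4 - 14500352 * b ^ 5
      - 20656640 * b ^ 6 + 1540608 * b ^ 7 + 11412480 * b ^ 8 + 5558784 * b ^ 9 + 794112 * b ^ 10) * t ^ 3
      + (2222464 + 12013568 * b + 23160576 * b ^ 2 + 14604480 * b ^ 3 - 9573952 * b ^ 4 - 16351872 * b ^ 5
      - 2026432 * b ^ 6 + 7325376 * b ^ 7 + 4900800 * b ^ 8 + 1191168 * b ^ 9 + 99264 * b ^ 10) * t ^ 4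
      + (1656528 + 6686912 * b + 7963664 * b ^ 2 - 1350720 * b ^ 3 - 8684176 * b ^ 4 - 3133312 * b ^ 5
      + 3884592 * b ^ 6 + 3511104 * b ^ 7 + 992640 * b ^ 8 + 99264 * b ^ 9) * t ^ 5
      + (937888 + 3564160 * b + 4971504 * b ^ 2 + 3399232 * b ^ 3 + 2413456 * b ^ 4 + 2867712 * b ^ 5
      + 2128656 * b ^ 6 + 694848 * b ^ 7 + 74448 * b ^ 8) * t ^ 6
      + (612128 + 2723456 * b + 5020704 * b ^ 2 + 5140448 * b ^ 3 + 3399392 * b ^ 4 + 1565376 * b ^ 5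
      + 446688 * b ^ 6 + 49632 * b ^ 7) * t ^ 7
      + (335016 + 1488960 * b + 2636700 * b ^ 2 + 2357520 * b ^ 3 + 1116720 * b ^ 4 + 272976 * b ^ 5
      + 31020 * b ^ 6) * t ^ 8
      + (103400 + 432212 * b + 694848 * b ^ 2 + 525272 * b ^ 3 + 177848 * b ^ 4 + 18612 * b ^ 5) * t ^ 9
      + (12925 + 51700 * b + 77550 * b ^ 2 + 51700 * b ^ 3 + 12925 * b ^ 4) * t ^ 10) = _ by
    simp only [T, c00, c01, c02, c10, c11, c20, c21, phiN]; ring)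
  have := rd_0 h0 h1
  have := rd_1 h0 h1
  have := rd_2 h0 h1
  have := rd_3 h0 h1
  have := rd_4 h0 h1
  have := rd_5 h0 h1
  have := rd_6 h0 h1
  have := rd_7 h0 h1
  have := rd_8 h0 h1
  have := rd_9 h0 h1
  have := rd_10 h0 h1
  refine mul_nonneg (sq_nonneg _) ?_
  positivity

end Vale.Agent.P219.Nine
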