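import Vale.Agent.P219.Nine.EdgeT
import Vale.Agent.P219.Nine.EdgeD
import Vale.Agent.P219.Nine.EdgeA
import Vale.Agent.P219.Nine.Convex

/-!
# P219: scalar inequalities of the calibration in dimension nine

Both inequalities are concave in `p = ab` at fixed `s = a+b`; the multiplier is convex. Hence only
the edges `ab = 0`, `max a b = 1` and `a = b` remain.
-/

namespace Vale.Agent.P219.Nine

theorem two_point_nonneg {k0 k1 k2 p p0 p1 : ℝ} (hk : k2 ≤ 0) (h0 : p0 ≤ p) (h1 : p ≤ p1)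
    (e0 : 0 ≤ k0 + k1 * p0 + k2 * p0 ^ 2) (e1 : 0 ≤ k0 + k1 * p1 + k2 * p1 ^ 2) :
    0 ≤ k0 + k1 * p + k2 * p ^ 2 := by
  rcases (h0.trans h1).eq_or_lt with h | h
  · obtain rfl : p = p0 := by linarith
    exact e0
  · refine nonneg_of_mul_nonneg_right (a := p1 - p0) ?_ (sub_pos.2 h)
    nlinarith [mul_nonneg (sub_nonneg.2 h1) e0, mul_nonneg (sub_nonneg.2 h0) e1,
      mul_nonneg (neg_nonneg.2 hk)
        (mul_nonneg (mul_nonneg (sub_nonneg.2 h0) (sub_nonneg.2 h1)) (sub_pos.2 h).le)]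

theorem c02_nonpos {t : ℝ} (ht : 0 ≤ t) : c02 t ≤ 0 := by
  have := pow_nonneg ht 2
  have := pow_nonneg ht 3
  unfold c02; linarith

theorem Tzero_nonneg {t s : ℝ} (ht : 0 ≤ t) (h0 : 0 ≤ s) (h1 : s ≤ 1) : 0 ≤ T t s 0 := by
  rcases le_total t (1 / 4) with h | h
  · exact T0_0 h0 h1 ht h
  · exact T0_1 h0 h1 h

theorem Tdiag_nonneg {t b : ℝ} (ht : 0 ≤ t) (h0 : 0 ≤ b) (h1 : b ≤ 1) :
    0 ≤ T t (2 * b) (b * b) := by
  rcases le_total t (13 / 20) with h | h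
  · exact Td_0 h0 h1 ht h
  rcases le_total t (6 / 5) with h' | h'
  · exact Td_1 h0 h1 h h'
  rcases le_total t 2 with h'' | h''
  · exact Td_2 h0 h1 h' h''
  · exact Td_3 h0 h1 h''

theorem Tone_nonneg {t b : ℝ} (ht : 0 ≤ t) (h0 : 0 ≤ b) (h1 : b ≤ 1) :
    0 ≤ T t (1 + b) b := by
  rcases le_total t (13 / 20) with h | h
  · exact T1_0 h0 h1 ht h
  rcases le_total t (6 / 5) with h' | h'
  · exact T1_1 h0 h1 h h'
  rcases le_total t 2 with h'' | h''
  · exact T1_2 h0 h1 h' h''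
  · exact T1_3 h0 h1 h''

theorem num_sub_rem_nonneg {t : ℝ} (ht : 0 ≤ t) : 0 ≤ num t - rem t := by
  rcases le_total t (1 / 2) with h | h
  · exact N1_0 ht h
  rcases le_total t (7 / 10) with h' | h'
  · exact N1_1 h h'
  · exact N1_2 h'

theorem phiN_nonneg {c : ℝ} (h0 : 0 ≤ c) (h1 : c ≤ 1) : 0 ≤ phiN c :=
  (phiN_nonneg_aux h0 h1).trans (le_of_eq (by unfold phiN; ring))

theorem phi_nonneg {c : ℝ} (h0 : 0 ≤ c) (h1 : c ≤ 1) : 0 ≤ phi c :=
  div_nonneg (phiN_nonneg h0 h1) (by positivity)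

theorem phi_tangent {a m : ℝ} (ha0 : 0 ≤ a) (ha1 : a ≤ 1) (h0 : 0 ≤ m) (h1 : m ≤ 1) :
    phi m + dphiN m / (990000 * (1 + m) ^ 5) * (a - m) ≤ phi a := by
  have h := phi_tangent_nonneg ha0 ha1 h0 h1
  have e : phi a - (phi m + dphiN m / (990000 * (1 + m) ^ 5) * (a - m))
      = (phiN a * (1 + m) ^ 5 - phiN m * (1 + a) ^ 4 * (1 + m)
          - dphiN m * (1 + a) ^ 4 * (a - m)) / (990000 * (1 + a) ^ 4 * (1 + m) ^ 5) := by
    unfold phi; field_simp; ring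
  have : 0 ≤ phi a - (phi m + dphiN m / (990000 * (1 + m) ^ 5) * (a - m)) := by
    rw [e]; exact div_nonneg h (by positivity)
  linarith

theorem phi_mid {a b : ℝ} (ha0 : 0 ≤ a) (ha1 : a ≤ 1) (hb0 : 0 ≤ b) (hb1 : b ≤ 1) :
    2 * phi ((a + b) / 2) ≤ phi a + phi b := by
  have h1 := phi_tangent ha0 ha1 (show 0 ≤ (a + b) / 2 by linarith) (by linarith)
  have h2 := phi_tangent hb0 hb1 (show 0 ≤ (a + b) / 2 by linarith) (by linarith)
  have e : dphiN ((a + b) / 2) / (990000 * (1 + (a + b) / 2) ^ 5) * (b - (a + b) / 2)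
      = -(dphiN ((a + b) / 2) / (990000 * (1 + (a + b) / 2) ^ 5) * (a - (a + b) / 2)) := by ring
  linarith

/-- The three edges give the inequality for all `a, b` in the unit interval. -/
theorem edges {a b : ℝ} {k0 k1 k2 : ℝ → ℝ} (hk : k2 (a + b) ≤ 0) (ha0 : 0 ≤ a) (ha1 : a ≤ 1)
    (hb0 : 0 ≤ b) (hb1 : b ≤ 1)
    (hzero : ∀ s, 0 ≤ s → s ≤ 1 → 0 ≤ k0 s + k1 s * 0 + k2 s * 0 ^ 2)
    (hdiag : ∀ c, 0 ≤ c → c ≤ 1 →
      0 ≤ k0 (2 * c) + k1 (2 * c) * (c * c) + k2 (2 * c) * (c * c) ^ 2)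
    (hone : ∀ c, 0 ≤ c → c ≤ 1 → 0 ≤ k0 (1 + c) + k1 (1 + c) * c + k2 (1 + c) * c ^ 2) :
    0 ≤ k0 (a + b) + k1 (a + b) * (a * b) + k2 (a + b) * (a * b) ^ 2 := by
  have hd := hdiag ((a + b) / 2) (by linarith) (by linarith)
  rw [show 2 * ((a + b) / 2) = a + b by ring] at hd
  have hp1 : a * b ≤ (a + b) / 2 * ((a + b) / 2) := by nlinarith [sq_nonneg (a - b)]
  rcases le_total (a + b) 1 with h | h
  · exact two_point_nonneg hk (mul_nonneg ha0 hb0) hp1 (hzero _ (by linarith) h) hd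
  · have ho := hone (a + b - 1) (by linarith) (by linarith)
    rw [show 1 + (a + b - 1) = a + b by ring] at ho
    exact two_point_nonneg hk (by nlinarith) hp1 ho hd

theorem T_nonneg {t a b : ℝ} (ht : 0 ≤ t) (ha0 : 0 ≤ a) (ha1 : a ≤ 1) (hb0 : 0 ≤ b)
    (hb1 : b ≤ 1) : 0 ≤ T t (a + b) (a * b) := by
  have := edges (k0 := fun s => c00 t + c10 t * s + c20 t * s ^ 2)
    (k1 := fun s => c01 t + c11 t * s + c21 t * s ^ 2) (k2 := fun _ => c02 t) (c02_nonpos ht)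
    ha0 ha1 hb0 hb1 (fun s h h' => Tzero_nonneg ht h h') (fun c h h' => Tdiag_nonneg ht h h')
    (fun c h h' => Tone_nonneg ht h h')
  exact this

/-- The certificate along chords. -/
theorem Z_nonneg {t a b : ℝ} (ht : 0 ≤ t) (ha0 : 0 ≤ a) (ha1 : a ≤ 1) (hb0 : 0 ≤ b)
    (hb1 : b ≤ 1) :
    0 ≤ t ^ 3 * T t (a + b) (a * b)
      + a * b * (495000 * (t + 2) ^ 4) * (phi a + phi b - t) := by
  have h := edges (a := a) (b := b)
    (k0 := fun s => t ^ 3 * (c00 t + c10 t * s + c20 t * s ^ 2))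
    (k1 := fun s => t ^ 3 * (c01 t + c11 t * s + c21 t * s ^ 2)
      + 495000 * (t + 2) ^ 4 * (2 * phi (s / 2) - t))
    (k2 := fun _ => t ^ 3 * c02 t)
    (mul_nonpos_of_nonneg_of_nonpos (pow_nonneg ht 3) (c02_nonpos ht)) ha0 ha1 hb0 hb1
    (fun s h h' => by
      have := mul_nonneg (pow_nonneg ht 3) (Tzero_nonneg ht h h')
      refine this.trans (le_of_eq ?_)
      simp only [T]; ring)
    (fun c h h' => by
      have := div_nonneg (Zdiag_nonneg ht h h') (show (0 : ℝ) ≤ (1 + c) ^ 4 by positivity)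
      refine this.trans (le_of_eq ?_)
      simp only [T, phi, show 2 * c / 2 = c by ring]
      field_simp
      ring)
    (fun c h h' => by
      have hz : 0 ≤ 64 * (3 + c) ^ 4 * t ^ 3 * T t (1 + c) c
          + c * (t + 2) ^ 4 * (phiH (1 + c) - 31680000 * t * (3 + c) ^ 4) := by
        rcases le_total t 1 with h1 | h1
        · exact Zone_small ht h1 h h'
        · exact Zone_large h1 h h'
      have := div_nonneg hz (show (0 : ℝ) ≤ 64 * (3 + c) ^ 4 by positivity)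
      refine this.trans (le_of_eq ?_)
      have : 1 + (1 + c) / 2 ≠ 0 := by linarith
      simp only [T, phi, phiN, phiH]
      field_simp
      ring)
  have hm := mul_le_mul_of_nonneg_left (phi_mid ha0 ha1 hb0 hb1)
    (show 0 ≤ a * b * (495000 * (t + 2) ^ 4) by positivity)
  simp only [T] at h ⊢
  nlinarith

end Vale.Agent.P219.Nine
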