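import Mathlib

/-!
# P219: polynomials of the calibration in dimension nine

`T t (a+b) (ab)` is `495000 t⁵ (t+2)⁴` times the pair kernel of
`F = (num t - u² rem t)/(123750 t⁴ (t+2)³)`, `α = 47/1800`.
-/

namespace Vale.Agent.P219.Nine

noncomputable section

/-- The radial part of the numerator of the weight. -/
def num (t : ℝ) : ℝ :=
  27500 + 41250 * t + 34100 * t ^ 2 + 40618 * t ^ 3 + 20877 * t ^ 4 + 6204 * t ^ 5 + 1034 * t ^ 6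

/-- The part of the numerator multiplying `-u²`. -/
def rem (t : ℝ) : ℝ := 101808 * t + 39312 * t ^ 2

def c00 (t : ℝ) : ℝ :=
  660000 + 1320000 * t + 1529000 * t ^ 2 + 2222464 * t ^ 3 + 1656528 * t ^ 4 + 937888 * t ^ 5
  + 612128 * t ^ 6 + 335016 * t ^ 7 + 103400 * t ^ 8 + 12925 * t ^ 9

def c01 (t : ℝ) : ℝ :=
  -1100000 - 571072 * t - 1437144 * t ^ 2 - 1468288 * t ^ 3 - 979376 * t ^ 4 - 334032 * t ^ 5
  - 66176 * t ^ 6 - 8272 * t ^ 7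

def c02 (t : ℝ) : ℝ :=
  -4886784 * t - 5237568 * t ^ 2 - 1257984 * t ^ 3

def c10 (t : ℝ) : ℝ :=
  -880000 * t - 1760000 * t ^ 2 - 1751200 * t ^ 3 - 1845376 * t ^ 4 - 1317952 * t ^ 5 - 532560 * t ^ 6
  - 132352 * t ^ 7 - 16544 * t ^ 8

def c11 (t : ℝ) : ℝ :=
  3257856 * t ^ 2 + 2886912 * t ^ 3 + 628992 * t ^ 4

def c20 (t : ℝ) : ℝ :=
  550000 - 528928 * t - 3156 * t ^ 2 + 576896 * t ^ 3 + 489688 * t ^ 4 + 167016 * t ^ 5 + 33088 * t ^ 6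
  + 4136 * t ^ 7

def c21 (t : ℝ) : ℝ :=
  814464 * t + 721728 * t ^ 2 + 157248 * t ^ 3

/-- The kernel numerator in `s = a+b`, `p = ab`. -/
def T (t s p : ℝ) : ℝ :=
  c00 t + c10 t * s + c20 t * s ^ 2 + (c01 t + c11 t * s + c21 t * s ^ 2) * p + c02 t * p ^ 2

/-- The numerator of the multiplier. -/
def phiN (c : ℝ) : ℝ :=
  660000 * c + 2640000 * c ^ 2 + 4092000 * c ^ 3 + 4796928 * c ^ 4 + 4646912 * c ^ 5 - 239872 * c ^ 6
  - 3642624 * c ^ 7 - 249600 * c ^ 8 + 1588224 * c ^ 9 + 397056 * c ^ 10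

/-- `2 ^ 10 * phiN (s / 2)`. -/
def phiH (s : ℝ) : ℝ :=
  337920000 * s + 675840000 * s ^ 2 + 523776000 * s ^ 3 + 307003392 * s ^ 4 + 148701184 * s ^ 5
  - 3837952 * s ^ 6 - 29140992 * s ^ 7 - 998400 * s ^ 8 + 3176448 * s ^ 9 + 397056 * s ^ 10

/-- The multiplier. -/
def phi (c : ℝ) : ℝ := phiN c / (990000 * (1 + c) ^ 4)

end

end Vale.Agent.P219.Nine
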