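import Vale.Agent.P219.Nine.Defs

/-!
# P219: the pair kernel on the edges for the calibration in dimension nine

Generated positivity certificates: each polynomial is a combination of products of nonnegative factors.
-/

namespace Vale.Agent.P219.Nine

theorem T0_0_0 {b : ℝ} (h0 : 0 ≤ b) (h1 : b ≤ 1) : 0 ≤ (173015040000 + 144179200000 * b ^ 2) := by
  have key : ∀ u : ℝ, 0 ≤ u → 0 ≤ 173015040000 * u ^ 2 + 346030080000 * b * u + 317194240000 * b ^ 2 :=
    fun u hu => by positivity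
  refine (key (1 - b) (sub_nonneg.2 h1)).trans (le_of_eq ?_)
  ring

theorem T0_0_1 {b : ℝ} (h0 : 0 ≤ b) (h1 : b ≤ 1) : 0 ≤ (1643642880000 - 57671680000 * b + 1262948974592 * b ^ 2) := by
  have key : ∀ u : ℝ, 0 ≤ u → 0 ≤ 1643642880000 * u ^ 2 + 3229614080000 * b * u + 2848920174592 * b ^ 2 :=
    fun u hu => by positivity
  refine (key (1 - b) (sub_nonneg.2 h1)).trans (le_of_eq ?_)
  ring

theorem T0_0_2 {b : ℝ} (h0 : 0 ≤ b) (h1 : b ≤ 1) : 0 ≤ (6945652736000 - 490209280000 * b + 4913088888832 * b ^ 2) := by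
  have key : ∀ u : ℝ, 0 ≤ u → 0 ≤ 6945652736000 * u ^ 2 + 13401096192000 * b * u + 11368532344832 * b ^ 2 :=
    fun u hu => by positivity
  refine (key (1 - b) (sub_nonneg.2 h1)).trans (le_of_eq ?_)
  ring

theorem T0_0_3 {b : ℝ} (h0 : 0 ≤ b) (h1 : b ≤ 1) : 0 ≤ (17139935084544 - 1823830835200 * b + 11142466699264 * b ^ 2) := by
  have key : ∀ u : ℝ, 0 ≤ u → 0 ≤ 17139935084544 * u ^ 2 + 32456039333888 * b * u + 26458570948608 * b ^ 2 :=
    fun u hu => by positivity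
  refine (key (1 - b) (sub_nonneg.2 h1)).trans (le_of_eq ?_)
  ring

theorem T0_0_4 {b : ℝ} (h0 : 0 ≤ b) (h1 : b ≤ 1) : 0 ≤ (27226705575936 - 3880093876224 * b + 16238998347776 * b ^ 2) := by
  have key : ∀ u : ℝ, 0 ≤ u → 0 ≤ 27226705575936 * u ^ 2 + 50573317275648 * b * u + 39585610047488 * b ^ 2 :=
    fun u hu => by positivity
  refine (key (1 - b) (sub_nonneg.2 h1)).trans (le_of_eq ?_)
  ring

theorem T0_0_5 {b : ℝ} (h0 : 0 ≤ b) (h1 : b ≤ 1) : 0 ≤ (28877480910848 - 5163651448832 * b + 15776296093696 * b ^ 2) := by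
  have key : ∀ u : ℝ, 0 ≤ u → 0 ≤ 28877480910848 * u ^ 2 + 52591310372864 * b * u + 39490125555712 * b ^ 2 :=
    fun u hu => by positivity
  refine (key (1 - b) (sub_nonneg.2 h1)).trans (le_of_eq ?_)
  ring

theorem T0_0_6 {b : ℝ} (h0 : 0 ≤ b) (h1 : b ≤ 1) : 0 ≤ (20454500911104 - 4402607100928 * b + 10220515667968 * b ^ 2) := by
  have key : ∀ u : ℝ, 0 ≤ u → 0 ≤ 20454500911104 * u ^ 2 + 36506394721280 * b * u + 26272409478144 * b ^ 2 :=
    fun u hu => by positivity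
  refine (key (1 - b) (sub_nonneg.2 h1)).trans (le_of_eq ?_)
  ring

theorem T0_0_7 {b : ℝ} (h0 : 0 ≤ b) (h1 : b ≤ 1) : 0 ≤ (9331900375680 - 2348978801664 * b + 4259500073600 * b ^ 2) := by
  have key : ∀ u : ℝ, 0 ≤ u → 0 ≤ 9331900375680 * u ^ 2 + 16314821949696 * b * u + 11242421647616 * b ^ 2 :=
    fun u hu => by positivity
  refine (key (1 - b) (sub_nonneg.2 h1)).trans (le_of_eq ?_)
  ring

theorem T0_0_8 {b : ℝ} (h0 : 0 ≤ b) (h1 : b ≤ 1) : 0 ≤ (2488743230624 - 717166272128 * b + 1036802749696 * b ^ 2) := by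
  have key : ∀ u : ℝ, 0 ≤ u → 0 ≤ 2488743230624 * u ^ 2 + 4260320189120 * b * u + 2808379708192 * b ^ 2 :=
    fun u hu => by positivity
  refine (key (1 - b) (sub_nonneg.2 h1)).trans (le_of_eq ?_)
  ring

theorem T0_0_9 {b : ℝ} (h0 : 0 ≤ b) (h1 : b ≤ 1) : 0 ≤ (295658255517 - 95943763584 * b + 112373013120 * b ^ 2) := by
  have key : ∀ u : ℝ, 0 ≤ u → 0 ≤ 295658255517 * u ^ 2 + 495372747450 * b * u + 312087505053 * b ^ 2 :=
    fun u hu => by positivity
  refine (key (1 - b) (sub_nonneg.2 h1)).trans (le_of_eq ?_)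
  ring

theorem T0_0 {t b : ℝ} (h0 : 0 ≤ b) (h1 : b ≤ 1) (hl : (0 : ℝ) ≤ t) (hr : t ≤ (1 : ℝ) / 4) :
    0 ≤ T t b 0 := by
  have hA : 0 ≤ (4 * t - 0) := by linarith
  have hB : 0 ≤ (1 - 4 * t) := by linarith
  refine nonneg_of_mul_nonneg_right (a := (262144 : ℝ)) ?_ (by norm_num)
  refine le_of_le_of_eq ?_ (show (173015040000 + 144179200000 * b ^ 2) * (1 - 4 * t) ^ 9
      + (1643642880000 - 57671680000 * b + 1262948974592 * b ^ 2) * (4 * t - 0) * (1 - 4 * t) ^ 8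
      + (6945652736000 - 490209280000 * b + 4913088888832 * b ^ 2) * (4 * t - 0) ^ 2 * (1 - 4 * t) ^ 7
      + (17139935084544 - 1823830835200 * b + 11142466699264 * b ^ 2) * (4 * t - 0) ^ 3 * (1 - 4 * t) ^ 6
      + (27226705575936 - 3880093876224 * b + 16238998347776 * b ^ 2) * (4 * t - 0) ^ 4 * (1 - 4 * t) ^ 5
      + (28877480910848 - 5163651448832 * b + 15776296093696 * b ^ 2) * (4 * t - 0) ^ 5 * (1 - 4 * t) ^ 4
      + (20454500911104 - 4402607100928 * b + 10220515667968 * b ^ 2) * (4 * t - 0) ^ 6 * (1 - 4 * t) ^ 3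
      + (9331900375680 - 2348978801664 * b + 4259500073600 * b ^ 2) * (4 * t - 0) ^ 7 * (1 - 4 * t) ^ 2
      + (2488743230624 - 717166272128 * b + 1036802749696 * b ^ 2) * (4 * t - 0) ^ 8 * (1 - 4 * t)
      + (295658255517 - 95943763584 * b + 112373013120 * b ^ 2) * (4 * t - 0) ^ 9
      = (262144 : ℝ) * (T t b 0) by
    simp only [T, c00, c01, c02, c10, c11, c20, c21]; ring)
  have := T0_0_0 h0 h1
  have := T0_0_1 h0 h1
  have := T0_0_2 h0 h1
  have := T0_0_3 h0 h1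
  have := T0_0_4 h0 h1
  have := T0_0_5 h0 h1
  have := T0_0_6 h0 h1
  have := T0_0_7 h0 h1
  have := T0_0_8 h0 h1
  have := T0_0_9 h0 h1
  positivity

theorem T0_1_0 {b : ℝ} (h0 : 0 ≤ b) (h1 : b ≤ 1) : 0 ≤ (295658255517 - 95943763584 * b + 112373013120 * b ^ 2) := by
  have key : ∀ u : ℝ, 0 ≤ u → 0 ≤ 295658255517 * u ^ 2 + 495372747450 * b * u + 312087505053 * b ^ 2 :=
    fun u hu => by positivity
  refine (key (1 - b) (sub_nonneg.2 h1)).trans (le_of_eq ?_)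
  ring

theorem T0_1_1 {b : ℝ} (h0 : 0 ≤ b) (h1 : b ≤ 1) : 0 ≤ (688724276116 - 585310400512 * b - 101782526464 * b ^ 2) := by
  have key : ∀ u : ℝ, 0 ≤ u → 0 ≤ 688724276116 * u ^ 2 + 792138151720 * b * u + 1631349140 * b ^ 2 :=
    fun u hu => by positivity
  refine (key (1 - b) (sub_nonneg.2 h1)).trans (le_of_eq ?_)
  ring

theorem T0_1_2 {b : ℝ} (h0 : 0 ≤ b) (h1 : b ≤ 1) : 0 ≤ (1050427668800 - 1049985818624 * b + 168104773632 * b ^ 2) := by
  have key : ∀ u : ℝ, 0 ≤ u → 0 ≤ 1050427668800 * u ^ 2 + 1050869518976 * b * u + 168546623808 * b ^ 2 :=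
    fun u hu => by positivity
  refine (key (1 - b) (sub_nonneg.2 h1)).trans (le_of_eq ?_)
  ring

theorem T0_1_3 {b : ℝ} (h0 : 0 ≤ b) (h1 : b ≤ 1) : 0 ≤ (1234222375168 - 1207362060288 * b + 309821300736 * b ^ 2) := by
  have key : ∀ u : ℝ, 0 ≤ u → 0 ≤ 1234222375168 * u ^ 2 + 1261082690048 * b * u + 336681615616 * b ^ 2 :=
    fun u hu => by positivity
  refine (key (1 - b) (sub_nonneg.2 h1)).trans (le_of_eq ?_)
  ring

theorem T0_1_4 {b : ℝ} (h0 : 0 ≤ b) (h1 : b ≤ 1) : 0 ≤ (947869107712 - 1066662559744 * b + 191821217792 * b ^ 2) := by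
  have key : ∀ u : ℝ, 0 ≤ u → 0 ≤ 947869107712 * u ^ 2 + 829075655680 * b * u + 73027765760 * b ^ 2 :=
    fun u hu => by positivity
  refine (key (1 - b) (sub_nonneg.2 h1)).trans (le_of_eq ?_)
  ring

theorem T0_1_5 {b : ℝ} (h0 : 0 ≤ b) (h1 : b ≤ 1) : 0 ≤ (627212294144 - 604236677120 * b + 58216022016 * b ^ 2) := by
  have key : ∀ u : ℝ, 0 ≤ u → 0 ≤ 627212294144 * u ^ 2 + 650187911168 * b * u + 81191639040 * b ^ 2 :=
    fun u hu => by positivity
  refine (key (1 - b) (sub_nonneg.2 h1)).trans (le_of_eq ?_)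
  ring

theorem T0_1_6 {b : ℝ} (h0 : 0 ≤ b) (h1 : b ≤ 1) : 0 ≤ (366036926464 - 207913746432 * b + 10571218944 * b ^ 2) := by
  have key : ∀ u : ℝ, 0 ≤ u → 0 ≤ 366036926464 * u ^ 2 + 524160106496 * b * u + 168694398976 * b ^ 2 :=
    fun u hu => by positivity
  refine (key (1 - b) (sub_nonneg.2 h1)).trans (le_of_eq ?_)
  ring

theorem T0_1_7 {b : ℝ} (h0 : 0 ≤ b) (h1 : b ≤ 1) : 0 ≤ (149657288704 - 43369103360 * b + 1084227584 * b ^ 2) := by
  have key : ∀ u : ℝ, 0 ≤ u → 0 ≤ 149657288704 * u ^ 2 + 255945474048 * b * u + 107372412928 * b ^ 2 :=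
    fun u hu => by positivity
  refine (key (1 - b) (sub_nonneg.2 h1)).trans (le_of_eq ?_)
  ring

theorem T0_1_8 {b : ℝ} (h0 : 0 ≤ b) (h1 : b ≤ 1) : 0 ≤ (34729164800 - 4336910336 * b) := by
  have key : ∀ u : ℝ, 0 ≤ u → 0 ≤ 34729164800 * u + 30392254464 * b :=
    fun u hu => by positivity
  refine (key (1 - b) (sub_nonneg.2 h1)).trans (le_of_eq ?_)
  ring

theorem T0_1_9 {b : ℝ} (_h0 : 0 ≤ b) (h1 : b ≤ 1) : 0 ≤ (3388211200) := by
  have key : ∀ u : ℝ, 0 ≤ u → 0 ≤ 3388211200 :=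
    fun u hu => by positivity
  refine (key (1 - b) (sub_nonneg.2 h1)).trans (le_of_eq ?_)
  ring

theorem T0_1 {t b : ℝ} (h0 : 0 ≤ b) (h1 : b ≤ 1) (hl : (1 : ℝ) / 4 ≤ t) :
    0 ≤ T t b 0 := by
  have hA : 0 ≤ (t - 1 / 4) := by linarith
  refine nonneg_of_mul_nonneg_right (a := (262144 : ℝ)) ?_ (by norm_num)
  refine le_of_le_of_eq ?_ (show (295658255517 - 95943763584 * b + 112373013120 * b ^ 2)
      + (688724276116 - 585310400512 * b - 101782526464 * b ^ 2) * (t - 1 / 4)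
      + (1050427668800 - 1049985818624 * b + 168104773632 * b ^ 2) * (t - 1 / 4) ^ 2
      + (1234222375168 - 1207362060288 * b + 309821300736 * b ^ 2) * (t - 1 / 4) ^ 3
      + (947869107712 - 1066662559744 * b + 191821217792 * b ^ 2) * (t - 1 / 4) ^ 4
      + (627212294144 - 604236677120 * b + 58216022016 * b ^ 2) * (t - 1 / 4) ^ 5
      + (366036926464 - 207913746432 * b + 10571218944 * b ^ 2) * (t - 1 / 4) ^ 6
      + (149657288704 - 43369103360 * b + 1084227584 * b ^ 2) * (t - 1 / 4) ^ 7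
      + (34729164800 - 4336910336 * b) * (t - 1 / 4) ^ 8
      + (3388211200) * (t - 1 / 4) ^ 9
      = (262144 : ℝ) * (T t b 0) by
    simp only [T, c00, c01, c02, c10, c11, c20, c21]; ring)
  have := T0_1_0 h0 h1
  have := T0_1_1 h0 h1
  have := T0_1_2 h0 h1
  have := T0_1_3 h0 h1
  have := T0_1_4 h0 h1
  have := T0_1_5 h0 h1
  have := T0_1_6 h0 h1
  have := T0_1_7 h0 h1
  have := T0_1_8 h0 h1
  have := T0_1_9 h0 h1
  positivity

theorem Td_0_0 {b : ℝ} (h0 : 0 ≤ b) (h1 : b ≤ 1) : 0 ≤ (67584000000000000 + 112640000000000000 * b ^ 2) := by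
  have key : ∀ u : ℝ, 0 ≤ u → 0 ≤ 67584000000000000 * u ^ 2 + 135168000000000000 * b * u + 180224000000000000 * b ^ 2 :=
    fun u hu => by positivity
  refine (key (1 - b) (sub_nonneg.2 h1)).trans (le_of_eq ?_)
  ring

theorem Td_0_1 {b : ℝ} (h0 : 0 ≤ b) (h1 : b ≤ 1) : 0 ≤ (696115200000000000 - 117145600000000000 * b + 834927656960000000 * b ^ 2 - 108421447680000000 * b ^ 4) := by
  have key : ∀ u : ℝ, 0 ≤ u → 0 ≤ 696115200000000000 * u ^ 4 + 2667315200000000000 * b * u ^ 3 + 4660182056960000000 * b ^ 2 * u ^ 2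
      + 4102879313920000000 * b ^ 3 * u + 1305475809280000000 * b ^ 4 :=
    fun u hu => by positivity
  refine (key (1 - b) (sub_nonneg.2 h1)).trans (le_of_eq ?_)
  ring

theorem Td_0_2 {b : ℝ} (h0 : 0 ≤ b) (h1 : b ≤ 1) : 0 ≤ (3202048256000000000 - 1089454080000000000 * b + 2561658492928000000 * b ^ 2 + 281895763968000000 * b ^ 3
      - 969070362624000000 * b ^ 4) := by
  have key : ∀ u : ℝ, 0 ≤ u → 0 ≤ 3202048256000000000 * u ^ 4 + 11718738944000000000 * b * u ^ 3 + 18505585788928000000 * b ^ 2 * u ^ 2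
      + 14945043533824000000 * b ^ 3 * u + 3987078070272000000 * b ^ 4 :=
    fun u hu => by positivity
  refine (key (1 - b) (sub_nonneg.2 h1)).trans (le_of_eq ?_)
  ring

theorem Td_0_3 {b : ℝ} (h0 : 0 ≤ b) (h1 : b ≤ 1) : 0 ≤ (8662667435622400000 - 4444594851840000000 * b + 4038997402009600000 * b ^ 2 + 2135639516774400000 * b ^ 3
      - 3765380264755200000 * b ^ 4) := by
  have key : ∀ u : ℝ, 0 ≤ u → 0 ≤ 8662667435622400000 * u ^ 4 + 30206074890649600000 * b * u ^ 3 + 42681217460224000000 * b ^ 2 * u ^ 2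
      + 31530519507763200000 * b ^ 3 * u + 6627329237811200000 * b ^ 4 :=
    fun u hu => by positivity
  refine (key (1 - b) (sub_nonneg.2 h1)).trans (le_of_eq ?_)
  ring

theorem Td_0_4 {b : ℝ} (h0 : 0 ≤ b) (h1 : b ≤ 1) : 0 ≤ (15230138179307520000 - 10416650434478080000 * b + 3020366903408640000 * b ^ 2 + 6917020797173760000 * b ^ 3
      - 8313405043507200000 * b ^ 4) := by
  have key : ∀ u : ℝ, 0 ≤ u → 0 ≤ 15230138179307520000 * u ^ 4 + 50503902282752000000 * b * u ^ 3 + 63151244675819520000 * b ^ 2 * u ^ 2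
      + 42628356017786880000 * b ^ 3 * u + 6437470401904640000 * b ^ 4 :=
    fun u hu => by positivity
  refine (key (1 - b) (sub_nonneg.2 h1)).trans (le_of_eq ?_)
  ring

theorem Td_0_5 {b : ℝ} (h0 : 0 ≤ b) (h1 : b ≤ 1) : 0 ≤ (18081031722175488000 - 15376348361314304000 * b - 73406488032768000 * b ^ 2 + 12416862973132800000 * b ^ 3
      - 11414282600448000000 * b ^ 4) := by
  have key : ∀ u : ℝ, 0 ≤ u → 0 ≤ 18081031722175488000 * u ^ 4 + 56947778527387648000 * b * u ^ 3 + 62283738761077248000 * b ^ 2 * u ^ 2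
      + 38465131801826304000 * b ^ 3 * u + 3633857245513216000 * b ^ 4 :=
    fun u hu => by positivity
  refine (key (1 - b) (sub_nonneg.2 h1)).trans (le_of_eq ?_)
  ring

theorem Td_0_6 {b : ℝ} (h0 : 0 ≤ b) (h1 : b ≤ 1) : 0 ≤ (14514527447978035200 - 14668272746559744000 * b - 2080694338485657600 * b ^ 2 + 13343682517401600000 * b ^ 3
      - 9984823640064000000 * b ^ 4) := by
  have key : ∀ u : ℝ, 0 ≤ u → 0 ≤ 14514527447978035200 * u ^ 4 + 43389837045352396800 * b * u ^ 3 + 41001652109703321600 * b ^ 2 * u ^ 2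
      + 23235585392663193600 * b ^ 3 * u + 1124419240270233600 * b ^ 4 :=
    fun u hu => by positivity
  refine (key (1 - b) (sub_nonneg.2 h1)).trans (le_of_eq ?_)
  ring

theorem Td_0_7 {b : ℝ} (h0 : 0 ≤ b) (h1 : b ≤ 1) : 0 ≤ (7605255786194079360 - 8844097301649725440 * b - 1711000602251354880 * b ^ 2 + 8585295976857600000 * b ^ 3
      - 5436798861312000000 * b ^ 4) := by
  have key : ∀ u : ℝ, 0 ≤ u → 0 ≤ 7605255786194079360 * u ^ 4 + 21576925843126592000 * b * u ^ 3 + 17388242209963944960 * b ^ 2 * u ^ 2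
      + 9052026012182031360 * b ^ 3 * u + 198654997838599040 * b ^ 4 :=
    fun u hu => by positivity
  refine (key (1 - b) (sub_nonneg.2 h1)).trans (le_of_eq ?_)
  ring

theorem Td_0_8 {b : ℝ} (h0 : 0 ≤ b) (h1 : b ≤ 1) : 0 ≤ (2363035028579010720 - 3084180951119420672 * b - 607342440978408960 * b ^ 2 + 3062459061043200000 * b ^ 3
      - 1685392618291200000 * b ^ 4) := by
  have key : ∀ u : ℝ, 0 ≤ u → 0 ≤ 2363035028579010720 * u ^ 4 + 6367959163196622208 * b * u ^ 3 + 4318324877137393344 * b ^ 2 * u ^ 2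
      + 2047371440044162944 * b ^ 3 * u + 48578079233181088 * b ^ 4 :=
    fun u hu => by positivity
  refine (key (1 - b) (sub_nonneg.2 h1)).trans (le_of_eq ?_)
  ring

theorem Td_0_9 {b : ℝ} (h0 : 0 ≤ b) (h1 : b ≤ 1) : 0 ≤ (332290180503477765 - 476372097353215232 * b - 82889351812903680 * b ^ 2 + 467259672821760000 * b ^ 3
      - 227808490291200000 * b ^ 4) := by
  have key : ∀ u : ℝ, 0 ≤ u → 0 ≤ 332290180503477765 * u ^ 4 + 852788624660695828 * b * u ^ 3 + 481735439148317214 * b ^ 2 * u ^ 2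
      + 201525399150218004 * b ^ 3 * u + 12479913867918853 * b ^ 4 :=
    fun u hu => by positivity
  refine (key (1 - b) (sub_nonneg.2 h1)).trans (le_of_eq ?_)
  ring

theorem Td_0 {t b : ℝ} (h0 : 0 ≤ b) (h1 : b ≤ 1) (hl : (0 : ℝ) ≤ t) (hr : t ≤ (13 : ℝ) / 20) :
    0 ≤ T t (2 * b) (b * b) := by
  have hA : 0 ≤ (20 * t - 0) := by linarith
  have hB : 0 ≤ (13 - 20 * t) := by linarith
  refine nonneg_of_mul_nonneg_right (a := (1085900735795200000000 : ℝ)) ?_ (by norm_num)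
  refine le_of_le_of_eq ?_ (show (67584000000000000 + 112640000000000000 * b ^ 2) * (13 - 20 * t) ^ 9
      + (696115200000000000 - 117145600000000000 * b + 834927656960000000 * b ^ 2 - 108421447680000000 * b ^ 4) * (20 * t - 0) * (13 - 20 * t) ^ 8
      + (3202048256000000000 - 1089454080000000000 * b + 2561658492928000000 * b ^ 2 + 281895763968000000 * b ^ 3
      - 969070362624000000 * b ^ 4) * (20 * t - 0) ^ 2 * (13 - 20 * t) ^ 7
      + (8662667435622400000 - 4444594851840000000 * b + 4038997402009600000 * b ^ 2 + 2135639516774400000 * b ^ 3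
      - 3765380264755200000 * b ^ 4) * (20 * t - 0) ^ 3 * (13 - 20 * t) ^ 6
      + (15230138179307520000 - 10416650434478080000 * b + 3020366903408640000 * b ^ 2 + 6917020797173760000 * b ^ 3
      - 8313405043507200000 * b ^ 4) * (20 * t - 0) ^ 4 * (13 - 20 * t) ^ 5
      + (18081031722175488000 - 15376348361314304000 * b - 73406488032768000 * b ^ 2 + 12416862973132800000 * b ^ 3
      - 11414282600448000000 * b ^ 4) * (20 * t - 0) ^ 5 * (13 - 20 * t) ^ 4
      + (14514527447978035200 - 14668272746559744000 * b - 2080694338485657600 * b ^ 2 + 13343682517401600000 * b ^ 3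
      - 9984823640064000000 * b ^ 4) * (20 * t - 0) ^ 6 * (13 - 20 * t) ^ 3
      + (7605255786194079360 - 8844097301649725440 * b - 1711000602251354880 * b ^ 2 + 8585295976857600000 * b ^ 3
      - 5436798861312000000 * b ^ 4) * (20 * t - 0) ^ 7 * (13 - 20 * t) ^ 2
      + (2363035028579010720 - 3084180951119420672 * b - 607342440978408960 * b ^ 2 + 3062459061043200000 * b ^ 3
      - 1685392618291200000 * b ^ 4) * (20 * t - 0) ^ 8 * (13 - 20 * t)
      + (332290180503477765 - 476372097353215232 * b - 82889351812903680 * b ^ 2 + 467259672821760000 * b ^ 3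
      - 227808490291200000 * b ^ 4) * (20 * t - 0) ^ 9
      = (1085900735795200000000 : ℝ) * (T t (2 * b) (b * b)) by
    simp only [T, c00, c01, c02, c10, c11, c20, c21]; ring)
  have := Td_0_0 h0 h1
  have := Td_0_1 h0 h1
  have := Td_0_2 h0 h1
  have := Td_0_3 h0 h1
  have := Td_0_4 h0 h1
  have := Td_0_5 h0 h1
  have := Td_0_6 h0 h1
  have := Td_0_7 h0 h1
  have := Td_0_8 h0 h1
  have := Td_0_9 h0 h1
  positivity

theorem Td_1_0 {b : ℝ} (h0 : 0 ≤ b) (h1 : b ≤ 1) : 0 ≤ (332290180503477765 - 476372097353215232 * b - 82889351812903680 * b ^ 2 + 467259672821760000 * b ^ 3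
      - 227808490291200000 * b ^ 4) := by
  have key : ∀ u : ℝ, 0 ≤ u → 0 ≤ 332290180503477765 * u ^ 4 + 852788624660695828 * b * u ^ 3 + 481735439148317214 * b ^ 2 * u ^ 2
      + 201525399150218004 * b ^ 3 * u + 12479913867918853 * b ^ 4 :=
    fun u hu => by positivity
  refine (key (1 - b) (sub_nonneg.2 h1)).trans (le_of_eq ?_)
  ring

theorem Td_1_1 {b : ℝ} (h0 : 0 ≤ b) (h1 : b ≤ 1) : 0 ≤ (3521637974952467640 - 5305414043536989440 * b - 863333318524976640 * b ^ 2 + 5172387666001920000 * b ^ 3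
      - 2359024238592000000 * b ^ 4) := by
  have key : ∀ u : ℝ, 0 ≤ u → 0 ≤ 3521637974952467640 * u ^ 4 + 8781137856272881120 * b * u ^ 3 + 4350252400578860880 * b ^ 2 * u ^ 2
      + 1616030798150868960 * b ^ 3 * u + 166254040300421560 * b ^ 4 :=
    fun u hu => by positivity
  refine (key (1 - b) (sub_nonneg.2 h1)).trans (le_of_eq ?_)
  ring

theorem Td_1_2 {b : ℝ} (h0 : 0 ≤ b) (h1 : b ≤ 1) : 0 ≤ (16685651791069395840 - 26239037961252493312 * b - 3805428619635413760 * b ^ 2 + 25207123384074240000 * b ^ 3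
      - 10781895308083200000 * b ^ 4) := by
  have key : ∀ u : ℝ, 0 ≤ u → 0 ≤ 16685651791069395840 * u ^ 4 + 40503569203025090048 * b * u ^ 3 + 17591368243023481344 * b ^ 2 * u ^ 2
      + 5621759425323515904 * b ^ 3 * u + 1066413286172528768 * b ^ 4 :=
    fun u hu => by positivity
  refine (key (1 - b) (sub_nonneg.2 h1)).trans (le_of_eq ?_)
  ring

theorem Td_1_3 {b : ℝ} (h0 : 0 ≤ b) (h1 : b ≤ 1) : 0 ≤ (46390605135127802880 - 75681322779327080448 * b - 9338575267963729920 * b ^ 2 + 71026912298926080000 * b ^ 3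
      - 28567217671372800000 * b ^ 4) := by
  have key : ∀ u : ℝ, 0 ≤ u → 0 ≤ 46390605135127802880 * u ^ 4 + 109881097761184131072 * b * u ^ 3 + 41961087204821846016 * b ^ 2 * u ^ 2
      + 10868213965528590336 * b ^ 3 * u + 3830401715390272512 * b ^ 4 :=
    fun u hu => by positivity
  refine (key (1 - b) (sub_nonneg.2 h1)).trans (le_of_eq ?_)
  ring

theorem Td_1_4 {b : ℝ} (h0 : 0 ≤ b) (h1 : b ≤ 1) : 0 ≤ (83412592044442705920 - 140354262625938243584 * b - 13996033935073259520 * b ^ 2 + 127602660860559360000 * b ^ 3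
      - 48384992142950400000 * b ^ 4) := by
  have key : ∀ u : ℝ, 0 ≤ u → 0 ≤ 83412592044442705920 * u ^ 4 + 193296105551832580096 * b * u ^ 3 + 65416730453768245248 * b ^ 2 * u ^ 2
      + 12198173290368933888 * b ^ 3 * u + 8279964201040162816 * b ^ 4 :=
    fun u hu => by positivity
  refine (key (1 - b) (sub_nonneg.2 h1)).trans (le_of_eq ?_)
  ring

theorem Td_1_5 {b : ℝ} (h0 : 0 ≤ b) (h1 : b ≤ 1) : 0 ≤ (100597749418654187520 - 173611420032348061696 * b - 13098838572330762240 * b ^ 2 + 151666520416911360000 * b ^ 3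
      - 54355204502323200000 * b ^ 4) := by
  have key : ∀ u : ℝ, 0 ≤ u → 0 ≤ 100597749418654187520 * u ^ 4 + 228779577642268688384 * b * u ^ 3 + 69653397842550177792 * b ^ 2 * u ^ 2
      + 7025580849822400512 * b ^ 3 * u + 11198806728563523584 * b ^ 4 :=
    fun u hu => by positivity
  refine (key (1 - b) (sub_nonneg.2 h1)).trans (le_of_eq ?_)
  ring

theorem Td_1_6 {b : ℝ} (h0 : 0 ≤ b) (h1 : b ≤ 1) : 0 ≤ (81389086799683256320 - 143258653541522472960 * b - 7400184636340305920 * b ^ 2 + 119332297377054720000 * b ^ 3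
      - 40518358401024000000 * b ^ 4) := by
  have key : ∀ u : ℝ, 0 ≤ u → 0 ≤ 81389086799683256320 * u ^ 4 + 182297693657210552320 * b * u ^ 3 + 51158375537191813120 * b ^ 2 * u ^ 2
      + 312314678539714560 * b ^ 3 * u + 9544187597851197440 * b ^ 4 :=
    fun u hu => by positivity
  refine (key (1 - b) (sub_nonneg.2 h1)).trans (le_of_eq ?_)
  ring

theorem Td_1_7 {b : ℝ} (h0 : 0 ≤ b) (h1 : b ≤ 1) : 0 ≤ (42604545104109240320 - 76048505371776516096 * b - 2213904669391585280 * b ^ 2 + 59964778390487040000 * b ^ 3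
      - 19333732987699200000 * b ^ 4) := by
  have key : ∀ u : ℝ, 0 ≤ u → 0 ≤ 42604545104109240320 * u ^ 5 + 136974220148769685504 * b * u ^ 4 + 119637524884594753536 * b ^ 2 * u ^ 3
      + 23077483192745590784 * b ^ 3 * u ^ 2 + 2782813818540261376 * b ^ 4 * u + 4973180465728978944 * b ^ 5 :=
    fun u hu => by positivity
  refine (key (1 - b) (sub_nonneg.2 h1)).trans (le_of_eq ?_)
  ring

theorem Td_1_8 {b : ℝ} (h0 : 0 ≤ b) (h1 : b ≤ 1) : 0 ≤ (13096581200546365440 - 23566079908825268224 * b - 196553695937167360 * b ^ 2 + 17470816392314880000 * b ^ 3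
      - 5360204434636800000 * b ^ 4) := by
  have key : ∀ u : ℝ, 0 ≤ u → 0 ≤ 13096581200546365440 * u ^ 5 + 41916826093906558976 * b * u ^ 4 + 36504938674225414144 * b ^ 2 * u ^ 3
      + 6450487857015422976 * b ^ 3 * u ^ 2 + 210353629612212224 * b ^ 4 * u + 1444559553462009856 * b ^ 5 :=
    fun u hu => by positivity
  refine (key (1 - b) (sub_nonneg.2 h1)).trans (le_of_eq ?_)
  ring

theorem Td_1_9 {b : ℝ} (h0 : 0 ≤ b) (h1 : b ≤ 1) : 0 ≤ (1801670478696284160 - 3247743907903045632 * b + 33561589412003840 * b ^ 2 + 2249558914498560000 * b ^ 3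
      - 658079376998400000 * b ^ 4) := by
  have key : ∀ u : ℝ, 0 ≤ u → 0 ≤ 1801670478696284160 * u ^ 6 + 7562278964274659328 * b * u ^ 5 + 10819899230341038080 * b ^ 2 * u ^ 4
      + 5939775767041802240 * b ^ 3 * u ^ 3 + 839585004383109120 * b ^ 4 * u ^ 2 + 138067679809372160 * b ^ 5 * u
      + 178967697705402368 * b ^ 6 :=
    fun u hu => by positivity
  refine (key (1 - b) (sub_nonneg.2 h1)).trans (le_of_eq ?_)
  ring

theorem Td_1 {t b : ℝ} (h0 : 0 ≤ b) (h1 : b ≤ 1) (hl : (13 : ℝ) / 20 ≤ t) (hr : t ≤ (6 : ℝ) / 5) :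
    0 ≤ T t (2 * b) (b * b) := by
  have hA : 0 ≤ (20 * t - 13) := by linarith
  have hB : 0 ≤ (24 - 20 * t) := by linarith
  refine nonneg_of_mul_nonneg_right (a := (241453843558400000000 : ℝ)) ?_ (by norm_num)
  refine le_of_le_of_eq ?_ (show (332290180503477765 - 476372097353215232 * b - 82889351812903680 * b ^ 2 + 467259672821760000 * b ^ 3
      - 227808490291200000 * b ^ 4) * (24 - 20 * t) ^ 9
      + (3521637974952467640 - 5305414043536989440 * b - 863333318524976640 * b ^ 2 + 5172387666001920000 * b ^ 3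
      - 2359024238592000000 * b ^ 4) * (20 * t - 13) * (24 - 20 * t) ^ 8
      + (16685651791069395840 - 26239037961252493312 * b - 3805428619635413760 * b ^ 2 + 25207123384074240000 * b ^ 3
      - 10781895308083200000 * b ^ 4) * (20 * t - 13) ^ 2 * (24 - 20 * t) ^ 7
      + (46390605135127802880 - 75681322779327080448 * b - 9338575267963729920 * b ^ 2 + 71026912298926080000 * b ^ 3
      - 28567217671372800000 * b ^ 4) * (20 * t - 13) ^ 3 * (24 - 20 * t) ^ 6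
      + (83412592044442705920 - 140354262625938243584 * b - 13996033935073259520 * b ^ 2 + 127602660860559360000 * b ^ 3
      - 48384992142950400000 * b ^ 4) * (20 * t - 13) ^ 4 * (24 - 20 * t) ^ 5
      + (100597749418654187520 - 173611420032348061696 * b - 13098838572330762240 * b ^ 2 + 151666520416911360000 * b ^ 3
      - 54355204502323200000 * b ^ 4) * (20 * t - 13) ^ 5 * (24 - 20 * t) ^ 4
      + (81389086799683256320 - 143258653541522472960 * b - 7400184636340305920 * b ^ 2 + 119332297377054720000 * b ^ 3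
      - 40518358401024000000 * b ^ 4) * (20 * t - 13) ^ 6 * (24 - 20 * t) ^ 3
      + (42604545104109240320 - 76048505371776516096 * b - 2213904669391585280 * b ^ 2 + 59964778390487040000 * b ^ 3
      - 19333732987699200000 * b ^ 4) * (20 * t - 13) ^ 7 * (24 - 20 * t) ^ 2
      + (13096581200546365440 - 23566079908825268224 * b - 196553695937167360 * b ^ 2 + 17470816392314880000 * b ^ 3
      - 5360204434636800000 * b ^ 4) * (20 * t - 13) ^ 8 * (24 - 20 * t)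
      + (1801670478696284160 - 3247743907903045632 * b + 33561589412003840 * b ^ 2 + 2249558914498560000 * b ^ 3
      - 658079376998400000 * b ^ 4) * (20 * t - 13) ^ 9
      = (241453843558400000000 : ℝ) * (T t (2 * b) (b * b)) by
    simp only [T, c00, c01, c02, c10, c11, c20, c21]; ring)
  have := Td_1_0 h0 h1
  have := Td_1_1 h0 h1
  have := Td_1_2 h0 h1
  have := Td_1_3 h0 h1
  have := Td_1_4 h0 h1
  have := Td_1_5 h0 h1
  have := Td_1_6 h0 h1
  have := Td_1_7 h0 h1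
  have := Td_1_8 h0 h1
  have := Td_1_9 h0 h1
  positivity

theorem Td_2_0 {b : ℝ} (h0 : 0 ≤ b) (h1 : b ≤ 1) : 0 ≤ (6872827448640 - 12389159804928 * b + 128027303360 * b ^ 2 + 8581386240000 * b ^ 3 - 2510373600000 * b ^ 4) := by
  have key : ∀ u : ℝ, 0 ≤ u → 0 ≤ 6872827448640 * u ^ 6 + 28847804886912 * b * u ^ 5 + 41274640008320 * b ^ 2 * u ^ 4 + 22658446376960 * b ^ 3 * u ^ 3
      + 3202762620480 * b ^ 4 * u ^ 2 + 526686400640 * b ^ 5 * u + 682707587072 * b ^ 6 :=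
    fun u hu => by positivity
  refine (key (1 - b) (sub_nonneg.2 h1)).trans (le_of_eq ?_)
  ring

theorem Td_2_1 {b : ℝ} (h0 : 0 ≤ b) (h1 : b ≤ 1) : 0 ≤ (79158653645760 - 142927860287488 * b + 3918847296320 * b ^ 2 + 92631168000000 * b ^ 3 - 25714533600000 * b ^ 4) := by
  have key : ∀ u : ℝ, 0 ≤ u → 0 ≤ 79158653645760 * u ^ 6 + 332024061587072 * b * u ^ 5 + 476659350545280 * b ^ 2 * u ^ 4 + 262201027225600 * b ^ 3 * u ^ 3
      + 33793255989440 * b ^ 4 * u ^ 2 + 2452446422400 * b ^ 5 * u + 7066275054592 * b ^ 6 :=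
    fun u hu => by positivity
  refine (key (1 - b) (sub_nonneg.2 h1)).trans (le_of_eq ?_)
  ring

theorem Td_2_2 {b : ℝ} (h0 : 0 ≤ b) (h1 : b ≤ 1) : 0 ≤ (407574203127680 - 733236402063360 * b + 31315837586560 * b ^ 2 + 441662054400000 * b ^ 3 - 116496576000000 * b ^ 4) := by
  have key : ∀ u : ℝ, 0 ≤ u → 0 ≤ 407574203127680 * u ^ 7 + 2119783019830400 * b * u ^ 6 + 4190955690887680 * b ^ 2 * u ^ 5 + 3864792320851200 * b ^ 3 * u ^ 4
      + 1563679085667200 * b ^ 4 * u ^ 3 + 174153208996480 * b ^ 5 * u ^ 2 + 27338687046400 * b ^ 6 * u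
      + 30819117050880 * b ^ 7 :=
    fun u hu => by positivity
  refine (key (1 - b) (sub_nonneg.2 h1)).trans (le_of_eq ?_)
  ring

theorem Td_2_3 {b : ℝ} (h0 : 0 ≤ b) (h1 : b ≤ 1) : 0 ≤ (1231254405788800 - 2195325631948800 * b + 122884982857600 * b ^ 2 + 1221160550400000 * b ^ 3
      - 306466272000000 * b ^ 4) := by
  have key : ∀ u : ℝ, 0 ≤ u → 0 ≤ 1231254405788800 * u ^ 7 + 6423455208572800 * b * u ^ 6 + 12807273712729600 * b ^ 2 * u ^ 5
      + 11999605188064000 * b ^ 3 * u ^ 4 + 4994417321808000 * b ^ 4 * u ^ 3 + 562872357308800 * b ^ 5 * u ^ 2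
      + 26495348716800 * b ^ 6 * u + 73508035097600 * b ^ 7 :=
    fun u hu => by positivity
  refine (key (1 - b) (sub_nonneg.2 h1)).trans (le_of_eq ?_)
  ring

theorem Td_2_4 {b : ℝ} (h0 : 0 ≤ b) (h1 : b ≤ 1) : 0 ≤ (2404949100096000 - 4227047365888000 * b + 283787437824000 * b ^ 2 + 2158352179200000 * b ^ 3
      - 516076344000000 * b ^ 4) := by
  have key : ∀ u : ℝ, 0 ≤ u → 0 ≤ 2404949100096000 * u ^ 8 + 15012545434880000 * b * u ^ 7 + 38033030679296000 * b ^ 2 * u ^ 6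
      + 49770231727872000 * b ^ 3 * u ^ 5 + 34932275320000000 * b ^ 4 * u ^ 4 + 11925456971776000 * b ^ 5 * u ^ 3
      + 1314455414400000 * b ^ 6 * u ^ 2 + 80441386496000 * b ^ 7 * u + 103965007232000 * b ^ 8 :=
    fun u hu => by positivity
  refine (key (1 - b) (sub_nonneg.2 h1)).trans (le_of_eq ?_)
  ring

theorem Td_2_5 {b : ℝ} (h0 : 0 ≤ b) (h1 : b ≤ 1) : 0 ≤ (3149590961280000 - 5427463781120000 * b + 413664653760000 * b ^ 2 + 2529597450240000 * b ^ 3
      - 577057521600000 * b ^ 4) := by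
  have key : ∀ u : ℝ, 0 ≤ u → 0 ≤ 3149590961280000 * u ^ 8 + 19769263909120000 * b * u ^ 7 + 50609965101760000 * b ^ 2 * u ^ 6
      + 67411939800960000 * b ^ 3 * u ^ 5 + 48786034486400000 * b ^ 4 * u ^ 4 + 17676898983680000 * b ^ 5 * u ^ 3
      + 2250406691520000 * b ^ 6 * u ^ 2 + 26226309760000 * b ^ 7 * u + 88331762560000 * b ^ 8 :=
    fun u hu => by positivity
  refine (key (1 - b) (sub_nonneg.2 h1)).trans (le_of_eq ?_)
  ring

theorem Td_2_6 {b : ℝ} (h0 : 0 ≤ b) (h1 : b ≤ 1) : 0 ≤ (2765400824400000 - 4646364153600000 * b + 387144625200000 * b ^ 2 + 1966416076800000 * b ^ 3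
      - 428554425600000 * b ^ 4) := by
  have key : ∀ u : ℝ, 0 ≤ u → 0 ≤ 2765400824400000 * u ^ 8 + 17476842441600000 * b * u ^ 7 + 45293818633200000 * b ^ 2 * u ^ 6
      + 61578082768800000 * b ^ 3 * u ^ 5 + 46166007668400000 * b ^ 4 * u ^ 4 + 17932536360000000 * b ^ 5 * u ^ 3
      + 2757579450000000 * b ^ 6 * u ^ 2 + 39387952800000 * b ^ 7 * u + 44042947200000 * b ^ 8 :=
    fun u hu => by positivity
  refine (key (1 - b) (sub_nonneg.2 h1)).trans (le_of_eq ?_)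
  ring

theorem Td_2_7 {b : ℝ} (h0 : 0 ≤ b) (h1 : b ≤ 1) : 0 ≤ (1569533022000000 - 2556940768000000 * b + 226560114000000 * b ^ 2 + 977937408000000 * b ^ 3
      - 203882112000000 * b ^ 4) := by
  have key : ∀ u : ℝ, 0 ≤ u → 0 ≤ 1569533022000000 * u ^ 4 + 3721191320000000 * b * u ^ 3 + 1972935942000000 * b ^ 2 * u ^ 2 + 38367420000000 * b ^ 3 * u
      + 13207664000000 * b ^ 4 :=
    fun u hu => by positivity
  refine (key (1 - b) (sub_nonneg.2 h1)).trans (le_of_eq ?_)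
  ring

theorem Td_2_8 {b : ℝ} (h0 : 0 ≤ b) (h1 : b ≤ 1) : 0 ≤ (522418635000000 - 820628960000000 * b + 75705345000000 * b ^ 2 + 282401280000000 * b ^ 3 - 56393820000000 * b ^ 4) := by
  have key : ∀ u : ℝ, 0 ≤ u → 0 ≤ 522418635000000 * u ^ 4 + 1269045580000000 * b * u ^ 3 + 748330275000000 * b ^ 2 * u ^ 2 + 61599630000000 * b ^ 3 * u
      + 3502480000000 * b ^ 4 :=
    fun u hu => by positivity
  refine (key (1 - b) (sub_nonneg.2 h1)).trans (le_of_eq ?_)
  ring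

theorem Td_2_9 {b : ℝ} (h0 : 0 ≤ b) (h1 : b ≤ 1) : 0 ≤ (77679225000000 - 117008000000000 * b + 11052675000000 * b ^ 2 + 36086400000000 * b ^ 3 - 6911100000000 * b ^ 4) := by
  have key : ∀ u : ℝ, 0 ≤ u → 0 ≤ 77679225000000 * u ^ 4 + 193708900000000 * b * u ^ 3 + 126104025000000 * b ^ 2 * u ^ 2 + 17884650000000 * b ^ 3 * u
      + 899200000000 * b ^ 4 :=
    fun u hu => by positivity
  refine (key (1 - b) (sub_nonneg.2 h1)).trans (le_of_eq ?_)
  ring

theorem Td_2 {t b : ℝ} (h0 : 0 ≤ b) (h1 : b ≤ 1) (hl : (6 : ℝ) / 5 ≤ t) (hr : t ≤ (2 : ℝ)) :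
    0 ≤ T t (2 * b) (b * b) := by
  have hA : 0 ≤ (5 * t - 6) := by linarith
  have hB : 0 ≤ (10 - 5 * t) := by linarith
  refine nonneg_of_mul_nonneg_right (a := (102400000000 : ℝ)) ?_ (by norm_num)
  refine le_of_le_of_eq ?_ (show (6872827448640 - 12389159804928 * b + 128027303360 * b ^ 2 + 8581386240000 * b ^ 3 - 2510373600000 * b ^ 4) * (10 - 5 * t) ^ 9
      + (79158653645760 - 142927860287488 * b + 3918847296320 * b ^ 2 + 92631168000000 * b ^ 3 - 25714533600000 * b ^ 4) * (5 * t - 6) * (10 - 5 * t) ^ 8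
      + (407574203127680 - 733236402063360 * b + 31315837586560 * b ^ 2 + 441662054400000 * b ^ 3 - 116496576000000 * b ^ 4) * (5 * t - 6) ^ 2 * (10 - 5 * t) ^ 7
      + (1231254405788800 - 2195325631948800 * b + 122884982857600 * b ^ 2 + 1221160550400000 * b ^ 3
      - 306466272000000 * b ^ 4) * (5 * t - 6) ^ 3 * (10 - 5 * t) ^ 6
      + (2404949100096000 - 4227047365888000 * b + 283787437824000 * b ^ 2 + 2158352179200000 * b ^ 3
      - 516076344000000 * b ^ 4) * (5 * t - 6) ^ 4 * (10 - 5 * t) ^ 5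
      + (3149590961280000 - 5427463781120000 * b + 413664653760000 * b ^ 2 + 2529597450240000 * b ^ 3
      - 577057521600000 * b ^ 4) * (5 * t - 6) ^ 5 * (10 - 5 * t) ^ 4
      + (2765400824400000 - 4646364153600000 * b + 387144625200000 * b ^ 2 + 1966416076800000 * b ^ 3
      - 428554425600000 * b ^ 4) * (5 * t - 6) ^ 6 * (10 - 5 * t) ^ 3
      + (1569533022000000 - 2556940768000000 * b + 226560114000000 * b ^ 2 + 977937408000000 * b ^ 3
      - 203882112000000 * b ^ 4) * (5 * t - 6) ^ 7 * (10 - 5 * t) ^ 2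
      + (522418635000000 - 820628960000000 * b + 75705345000000 * b ^ 2 + 282401280000000 * b ^ 3 - 56393820000000 * b ^ 4) * (5 * t - 6) ^ 8 * (10 - 5 * t)
      + (77679225000000 - 117008000000000 * b + 11052675000000 * b ^ 2 + 36086400000000 * b ^ 3 - 6911100000000 * b ^ 4) * (5 * t - 6) ^ 9
      = (102400000000 : ℝ) * (T t (2 * b) (b * b)) by
    simp only [T, c00, c01, c02, c10, c11, c20, c21]; ring)
  have := Td_2_0 h0 h1
  have := Td_2_1 h0 h1
  have := Td_2_2 h0 h1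
  have := Td_2_3 h0 h1
  have := Td_2_4 h0 h1
  have := Td_2_5 h0 h1
  have := Td_2_6 h0 h1
  have := Td_2_7 h0 h1
  have := Td_2_8 h0 h1
  have := Td_2_9 h0 h1
  positivity

theorem Td_3_0 {b : ℝ} (h0 : 0 ≤ b) (h1 : b ≤ 1) : 0 ≤ (198858816 - 299540480 * b + 28294848 * b ^ 2 + 92381184 * b ^ 3 - 17692416 * b ^ 4) := by
  have key : ∀ u : ℝ, 0 ≤ u → 0 ≤ 198858816 * u ^ 4 + 495894784 * b * u ^ 3 + 322826304 * b ^ 2 * u ^ 2 + 45784704 * b ^ 3 * u
      + 2301952 * b ^ 4 :=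
    fun u hu => by positivity
  refine (key (1 - b) (sub_nonneg.2 h1)).trans (le_of_eq ?_)
  ring

theorem Td_3_1 {b : ℝ} (h0 : 0 ≤ b) (h1 : b ≤ 1) : 0 ≤ (565422048 - 743817728 * b + 76059936 * b ^ 2 + 135604224 * b ^ 3 - 18579456 * b ^ 4) := by
  have key : ∀ u : ℝ, 0 ≤ u → 0 ≤ 565422048 * u ^ 4 + 1517870464 * b * u ^ 3 + 1237139040 * b ^ 2 * u ^ 2 + 317959104 * b ^ 3 * u
      + 14689024 * b ^ 4 :=
    fun u hu => by positivity
  refine (key (1 - b) (sub_nonneg.2 h1)).trans (le_of_eq ?_)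
  ring

theorem Td_3_2 {b : ℝ} (h0 : 0 ≤ b) (h1 : b ≤ 1) : 0 ≤ (746544168 - 816788352 * b + 75254616 * b ^ 2 + 71350272 * b ^ 3 - 6124608 * b ^ 4) := by
  have key : ∀ u : ℝ, 0 ≤ u → 0 ≤ 746544168 * u ^ 4 + 2169388320 * b * u ^ 3 + 2104154568 * b ^ 2 * u ^ 2 + 757671120 * b ^ 3 * u
      + 70236096 * b ^ 4 :=
    fun u hu => by positivity
  refine (key (1 - b) (sub_nonneg.2 h1)).trans (le_of_eq ?_)
  ring

theorem Td_3_3 {b : ℝ} (h0 : 0 ≤ b) (h1 : b ≤ 1) : 0 ≤ (593317248 - 516411712 * b + 37256064 * b ^ 2 + 15837696 * b ^ 3 - 628992 * b ^ 4) := by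
  have key : ∀ u : ℝ, 0 ≤ u → 0 ≤ 593317248 * u ^ 4 + 1856857280 * b * u ^ 3 + 2047924416 * b ^ 2 * u ^ 2 + 914383680 * b ^ 3 * u
      + 129370304 * b ^ 4 :=
    fun u hu => by positivity
  refine (key (1 - b) (sub_nonneg.2 h1)).trans (le_of_eq ?_)
  ring

theorem Td_3_4 {b : ℝ} (h0 : 0 ≤ b) (h1 : b ≤ 1) : 0 ≤ (309489168 - 205132672 * b + 10606416 * b ^ 2 + 1257984 * b ^ 3) := by
  have key : ∀ u : ℝ, 0 ≤ u → 0 ≤ 309489168 * u ^ 3 + 723334832 * b * u ^ 2 + 528808576 * b ^ 2 * u + 116220896 * b ^ 3 :=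
    fun u hu => by positivity
  refine (key (1 - b) (sub_nonneg.2 h1)).trans (le_of_eq ?_)
  ring

theorem Td_3_5 {b : ℝ} (h0 : 0 ≤ b) (h1 : b ≤ 1) : 0 ≤ (108804768 - 52475904 * b + 1822992 * b ^ 2) := by
  have key : ∀ u : ℝ, 0 ≤ u → 0 ≤ 108804768 * u ^ 2 + 165133632 * b * u + 58151856 * b ^ 2 :=
    fun u hu => by positivity
  refine (key (1 - b) (sub_nonneg.2 h1)).trans (le_of_eq ?_)
  ring

theorem Td_3_6 {b : ℝ} (h0 : 0 ≤ b) (h1 : b ≤ 1) : 0 ≤ (25568752 - 8476832 * b + 181984 * b ^ 2) := by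
  have key : ∀ u : ℝ, 0 ≤ u → 0 ≤ 25568752 * u ^ 2 + 42660672 * b * u + 17273904 * b ^ 2 :=
    fun u hu => by positivity
  refine (key (1 - b) (sub_nonneg.2 h1)).trans (le_of_eq ?_)
  ring

theorem Td_3_7 {b : ℝ} (h0 : 0 ≤ b) (h1 : b ≤ 1) : 0 ≤ (3850616 - 794112 * b + 8272 * b ^ 2) := by
  have key : ∀ u : ℝ, 0 ≤ u → 0 ≤ 3850616 * u ^ 2 + 6907120 * b * u + 3064776 * b ^ 2 :=
    fun u hu => by positivity
  refine (key (1 - b) (sub_nonneg.2 h1)).trans (le_of_eq ?_)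
  ring

theorem Td_3_8 {b : ℝ} (h0 : 0 ≤ b) (h1 : b ≤ 1) : 0 ≤ (336050 - 33088 * b) := by
  have key : ∀ u : ℝ, 0 ≤ u → 0 ≤ 336050 * u + 302962 * b :=
    fun u hu => by positivity
  refine (key (1 - b) (sub_nonneg.2 h1)).trans (le_of_eq ?_)
  ring

theorem Td_3_9 {b : ℝ} (_h0 : 0 ≤ b) (h1 : b ≤ 1) : 0 ≤ (12925) := by
  have key : ∀ u : ℝ, 0 ≤ u → 0 ≤ 12925 :=
    fun u hu => by positivity
  refine (key (1 - b) (sub_nonneg.2 h1)).trans (le_of_eq ?_)
  ring

theorem Td_3 {t b : ℝ} (h0 : 0 ≤ b) (h1 : b ≤ 1) (hl : (2 : ℝ) ≤ t) :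
    0 ≤ T t (2 * b) (b * b) := by
  have hA : 0 ≤ (t - 2 / 1) := by linarith
  refine nonneg_of_mul_nonneg_right (a := (1 : ℝ)) ?_ (by norm_num)
  refine le_of_le_of_eq ?_ (show (198858816 - 299540480 * b + 28294848 * b ^ 2 + 92381184 * b ^ 3 - 17692416 * b ^ 4)
      + (565422048 - 743817728 * b + 76059936 * b ^ 2 + 135604224 * b ^ 3 - 18579456 * b ^ 4) * (t - 2 / 1)
      + (746544168 - 816788352 * b + 75254616 * b ^ 2 + 71350272 * b ^ 3 - 6124608 * b ^ 4) * (t - 2 / 1) ^ 2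
      + (593317248 - 516411712 * b + 37256064 * b ^ 2 + 15837696 * b ^ 3 - 628992 * b ^ 4) * (t - 2 / 1) ^ 3
      + (309489168 - 205132672 * b + 10606416 * b ^ 2 + 1257984 * b ^ 3) * (t - 2 / 1) ^ 4
      + (108804768 - 52475904 * b + 1822992 * b ^ 2) * (t - 2 / 1) ^ 5
      + (25568752 - 8476832 * b + 181984 * b ^ 2) * (t - 2 / 1) ^ 6
      + (3850616 - 794112 * b + 8272 * b ^ 2) * (t - 2 / 1) ^ 7
      + (336050 - 33088 * b) * (t - 2 / 1) ^ 8
      + (12925) * (t - 2 / 1) ^ 9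
      = (1 : ℝ) * (T t (2 * b) (b * b)) by
    simp only [T, c00, c01, c02, c10, c11, c20, c21]; ring)
  have := Td_3_0 h0 h1
  have := Td_3_1 h0 h1
  have := Td_3_2 h0 h1
  have := Td_3_3 h0 h1
  have := Td_3_4 h0 h1
  have := Td_3_5 h0 h1
  have := Td_3_6 h0 h1
  have := Td_3_7 h0 h1
  have := Td_3_8 h0 h1
  have := Td_3_9 h0 h1
  positivity

theorem T1_0_0 {b : ℝ} (h0 : 0 ≤ b) (h1 : b ≤ 1) : 0 ≤ (123904000000000000 + 56320000000000000 * b ^ 2) := by
  have key : ∀ u : ℝ, 0 ≤ u → 0 ≤ 123904000000000000 * u ^ 2 + 247808000000000000 * b * u + 180224000000000000 * b ^ 2 :=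
    fun u hu => by positivity
  refine (key (1 - b) (sub_nonneg.2 h1)).trans (le_of_eq ?_)
  ring

theorem T1_0_1 {b : ℝ} (h0 : 0 ≤ b) (h1 : b ≤ 1) : 0 ≤ (1109216952320000000 - 112783523840000000 * b + 254831656960000000 * b ^ 2 + 54210723840000000 * b ^ 3) := by
  have key : ∀ u : ℝ, 0 ≤ u → 0 ≤ 1109216952320000000 * u ^ 3 + 3214867333120000000 * b * u ^ 2 + 3356915466240000000 * b ^ 2 * u
      + 1305475809280000000 * b ^ 3 :=
    fun u hu => by positivity
  refine (key (1 - b) (sub_nonneg.2 h1)).trans (le_of_eq ?_)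
  ring

theorem T1_0_2 {b : ℝ} (h0 : 0 ≤ b) (h1 : b ≤ 1) : 0 ≤ (4403061093376000000 - 868689788928000000 * b - 12203865088000000 * b ^ 2 + 464910630912000000 * b ^ 3) := by
  have key : ∀ u : ℝ, 0 ≤ u → 0 ≤ 4403061093376000000 * u ^ 3 + 12340493491200000000 * b * u ^ 2 + 11459599837184000000 * b ^ 2 * u
      + 3987078070272000000 * b ^ 3 :=
    fun u hu => by positivity
  refine (key (1 - b) (sub_nonneg.2 h1)).trans (le_of_eq ?_)
  ring

theorem T1_0_3 {b : ℝ} (h0 : 0 ≤ b) (h1 : b ≤ 1) : 0 ≤ (10200764924928000000 - 2895373881753600000 * b - 2418958019584000000 * b ^ 2 + 1740896214220800000 * b ^ 3) := by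
  have key : ∀ u : ℝ, 0 ≤ u → 0 ≤ 10200764924928000000 * u ^ 3 + 27706920893030400000 * b * u ^ 2 + 22392588991692800000 * b ^ 2 * u
      + 6627329237811200000 * b ^ 3 :=
    fun u hu => by positivity
  refine (key (1 - b) (sub_nonneg.2 h1)).trans (le_of_eq ?_)
  ring

theorem T1_0_4 {b : ℝ} (h0 : 0 ≤ b) (h1 : b ≤ 1) : 0 ≤ (15250050984985600000 - 5467869389864960000 * b - 7062765764428800000 * b ^ 2 + 3718054571212800000 * b ^ 3) := by
  have key : ∀ u : ℝ, 0 ≤ u → 0 ≤ 15250050984985600000 * u ^ 3 + 40282283565091840000 * b * u ^ 2 + 27751648410798080000 * b ^ 2 * u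
      + 6437470401904640000 * b ^ 3 :=
    fun u hu => by positivity
  refine (key (1 - b) (sub_nonneg.2 h1)).trans (le_of_eq ?_)
  ring

theorem T1_0_5 {b : ℝ} (h0 : 0 ≤ b) (h1 : b ≤ 1) : 0 ≤ (15310105353373952000 - 6433693749962752000 * b - 10196505413769984000 * b ^ 2 + 4953951055872000000 * b ^ 3) := by
  have key : ∀ u : ℝ, 0 ≤ u → 0 ≤ 15310105353373952000 * u ^ 3 + 39496622310159104000 * b * u ^ 2 + 22866423146426368000 * b ^ 2 * u
      + 3633857245513216000 * b ^ 3 :=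
    fun u hu => by positivity
  refine (key (1 - b) (sub_nonneg.2 h1)).trans (le_of_eq ?_)
  ring

theorem T1_0_6 {b : ℝ} (h0 : 0 ≤ b) (h1 : b ≤ 1) : 0 ≤ (10357155154351334400 - 4879406363475072000 * b - 8570440799502028800 * b ^ 2 + 4217111248896000000 * b ^ 3) := by
  have key : ∀ u : ℝ, 0 ≤ u → 0 ≤ 10357155154351334400 * u ^ 3 + 26192059099578931200 * b * u ^ 2 + 12742211936601830400 * b ^ 2 * u
      + 1124419240270233600 * b ^ 3 :=
    fun u hu => by positivity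
  refine (key (1 - b) (sub_nonneg.2 h1)).trans (le_of_eq ?_)
  ring

theorem T1_0_7 {b : ℝ} (h0 : 0 ≤ b) (h1 : b ≤ 1) : 0 ≤ (4567659726147539200 - 2369353554300062720 * b - 4239604065912877440 * b ^ 2 + 2239952891904000000 * b ^ 3) := by
  have key : ∀ u : ℝ, 0 ≤ u → 0 ≤ 4567659726147539200 * u ^ 3 + 11333625624142554880 * b * u ^ 2 + 4724668003929614720 * b ^ 2 * u
      + 198654997838599040 * b ^ 3 :=
    fun u hu => by positivity
  refine (key (1 - b) (sub_nonneg.2 h1)).trans (le_of_eq ?_)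
  ring

theorem T1_0_8 {b : ℝ} (h0 : 0 ≤ b) (h1 : b ≤ 1) : 0 ≤ (1196065396734895904 - 689653009242910336 * b - 1136626372463604480 * b ^ 2 + 678792064204800000 * b ^ 3) := by
  have key : ∀ u : ℝ, 0 ≤ u → 0 ≤ 1196065396734895904 * u ^ 3 + 2898543180961777376 * b * u ^ 2 + 1072263799255262560 * b ^ 2 * u
      + 48578079233181088 * b ^ 3 :=
    fun u hu => by positivity
  refine (key (1 - b) (sub_nonneg.2 h1)).trans (le_of_eq ?_)
  ring

theorem T1_0_9 {b : ℝ} (h0 : 0 ≤ b) (h1 : b ≤ 1) : 0 ≤ (142517085309218309 - 94413841654527616 * b - 125480959175571840 * b ^ 2 + 89857629388800000 * b ^ 3) := by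
  have key : ∀ u : ℝ, 0 ≤ u → 0 ≤ 142517085309218309 * u ^ 3 + 333137414273127311 * b * u ^ 2 + 113242613443027855 * b ^ 2 * u
      + 12479913867918853 * b ^ 3 :=
    fun u hu => by positivity
  refine (key (1 - b) (sub_nonneg.2 h1)).trans (le_of_eq ?_)
  ring

theorem T1_0 {t b : ℝ} (h0 : 0 ≤ b) (h1 : b ≤ 1) (hl : (0 : ℝ) ≤ t) (hr : t ≤ (13 : ℝ) / 20) :
    0 ≤ T t (1 + b) b := by
  have hA : 0 ≤ (20 * t - 0) := by linarith
  have hB : 0 ≤ (13 - 20 * t) := by linarith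
  refine nonneg_of_mul_nonneg_right (a := (1085900735795200000000 : ℝ)) ?_ (by norm_num)
  refine le_of_le_of_eq ?_ (show (123904000000000000 + 56320000000000000 * b ^ 2) * (13 - 20 * t) ^ 9
      + (1109216952320000000 - 112783523840000000 * b + 254831656960000000 * b ^ 2 + 54210723840000000 * b ^ 3) * (20 * t - 0) * (13 - 20 * t) ^ 8
      + (4403061093376000000 - 868689788928000000 * b - 12203865088000000 * b ^ 2 + 464910630912000000 * b ^ 3) * (20 * t - 0) ^ 2 * (13 - 20 * t) ^ 7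
      + (10200764924928000000 - 2895373881753600000 * b - 2418958019584000000 * b ^ 2 + 1740896214220800000 * b ^ 3) * (20 * t - 0) ^ 3 * (13 - 20 * t) ^ 6
      + (15250050984985600000 - 5467869389864960000 * b - 7062765764428800000 * b ^ 2 + 3718054571212800000 * b ^ 3) * (20 * t - 0) ^ 4 * (13 - 20 * t) ^ 5
      + (15310105353373952000 - 6433693749962752000 * b - 10196505413769984000 * b ^ 2 + 4953951055872000000 * b ^ 3) * (20 * t - 0) ^ 5 * (13 - 20 * t) ^ 4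
      + (10357155154351334400 - 4879406363475072000 * b - 8570440799502028800 * b ^ 2 + 4217111248896000000 * b ^ 3) * (20 * t - 0) ^ 6 * (13 - 20 * t) ^ 3
      + (4567659726147539200 - 2369353554300062720 * b - 4239604065912877440 * b ^ 2 + 2239952891904000000 * b ^ 3) * (20 * t - 0) ^ 7 * (13 - 20 * t) ^ 2
      + (1196065396734895904 - 689653009242910336 * b - 1136626372463604480 * b ^ 2 + 678792064204800000 * b ^ 3) * (20 * t - 0) ^ 8 * (13 - 20 * t)
      + (142517085309218309 - 94413841654527616 * b - 125480959175571840 * b ^ 2 + 89857629388800000 * b ^ 3) * (20 * t - 0) ^ 9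
      = (1085900735795200000000 : ℝ) * (T t (1 + b) b) by
    simp only [T, c00, c01, c02, c10, c11, c20, c21]; ring)
  have := T1_0_0 h0 h1
  have := T1_0_1 h0 h1
  have := T1_0_2 h0 h1
  have := T1_0_3 h0 h1
  have := T1_0_4 h0 h1
  have := T1_0_5 h0 h1
  have := T1_0_6 h0 h1
  have := T1_0_7 h0 h1
  have := T1_0_8 h0 h1
  have := T1_0_9 h0 h1
  positivity

theorem T1_1_0 {b : ℝ} (h0 : 0 ≤ b) (h1 : b ≤ 1) : 0 ≤ (142517085309218309 - 94413841654527616 * b - 125480959175571840 * b ^ 2 + 89857629388800000 * b ^ 3) := by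
  have key : ∀ u : ℝ, 0 ≤ u → 0 ≤ 142517085309218309 * u ^ 3 + 333137414273127311 * b * u ^ 2 + 113242613443027855 * b ^ 2 * u
      + 12479913867918853 * b ^ 3 :=
    fun u hu => by positivity
  refine (key (1 - b) (sub_nonneg.2 h1)).trans (le_of_eq ?_)
  ring

theorem T1_1_1 {b : ℝ} (h0 : 0 ≤ b) (h1 : b ≤ 1) : 0 ≤ (1355920850977484600 - 985169745823534720 * b - 1123153621909528320 * b ^ 2 + 918656557056000000 * b ^ 3) := by
  have key : ∀ u : ℝ, 0 ≤ u → 0 ≤ 1355920850977484600 * u ^ 3 + 3082592807108919080 * b * u ^ 2 + 974269439375856040 * b ^ 2 * u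
      + 166254040300421560 * b ^ 3 :=
    fun u hu => by positivity
  refine (key (1 - b) (sub_nonneg.2 h1)).trans (le_of_eq ?_)
  ring

theorem T1_1_2 {b : ℝ} (h0 : 0 ≤ b) (h1 : b ≤ 1) : 0 ≤ (5809650827998242304 - 4662189615961926656 * b - 4227280253236586880 * b ^ 2 + 4146232327372800000 * b ^ 3) := by
  have key : ∀ u : ℝ, 0 ≤ u → 0 ≤ 5809650827998242304 * u ^ 3 + 12766762868032800256 * b * u ^ 2 + 3877292998834286720 * b ^ 2 * u
      + 1066413286172528768 * b ^ 3 :=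
    fun u hu => by positivity
  refine (key (1 - b) (sub_nonneg.2 h1)).trans (le_of_eq ?_)
  ring

theorem T1_1_3 {b : ℝ} (h0 : 0 ≤ b) (h1 : b ≤ 1) : 0 ≤ (14732618676909597696 - 13179167805627700224 * b - 8575011721318824960 * b ^ 2 + 10851962565427200000 * b ^ 3) := by
  have key : ∀ u : ℝ, 0 ≤ u → 0 ≤ 14732618676909597696 * u ^ 3 + 31018688225101092864 * b * u ^ 2 + 9264508698154567680 * b ^ 2 * u
      + 3830401715390272512 * b ^ 3 :=
    fun u hu => by positivity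
  refine (key (1 - b) (sub_nonneg.2 h1)).trans (le_of_eq ?_)
  ring

theorem T1_1_4 {b : ℝ} (h0 : 0 ≤ b) (h1 : b ≤ 1) : 0 ≤ (24401046173818554368 - 24539403292571041792 * b - 9745281090088949760 * b ^ 2 + 18163602409881600000 * b ^ 3) := by
  have key : ∀ u : ℝ, 0 ≤ u → 0 ≤ 24401046173818554368 * u ^ 3 + 48663735228884621312 * b * u ^ 2 + 14379050846224629760 * b ^ 2 * u
      + 8279964201040162816 * b ^ 3 :=
    fun u hu => by positivity
  refine (key (1 - b) (sub_nonneg.2 h1)).trans (le_of_eq ?_)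
  ring

theorem T1_1_5 {b : ℝ} (h0 : 0 ≤ b) (h1 : b ≤ 1) : 0 ≤ (27415427451431575552 - 31145257142835150848 * b - 5244170915149701120 * b ^ 2 + 20172807335116800000 * b ^ 3) := by
  have key : ∀ u : ℝ, 0 ≤ u → 0 ≤ 27415427451431575552 * u ^ 3 + 51101025211459575808 * b * u ^ 2 + 14711597153474723840 * b ^ 2 * u
      + 11198806728563523584 * b ^ 3 :=
    fun u hu => by positivity
  refine (key (1 - b) (sub_nonneg.2 h1)).trans (le_of_eq ?_)
  ring

theorem T1_1_6 {b : ℝ} (h0 : 0 ≤ b) (h1 : b ≤ 1) : 0 ≤ (20932719129375866880 - 26836229500857876480 * b + 574646550709207040 * b ^ 2 + 14873051418624000000 * b ^ 3) := by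
  have key : ∀ u : ℝ, 0 ≤ u → 0 ≤ 20932719129375866880 * u ^ 3 + 35961927887269724160 * b * u ^ 2 + 9700344937121054720 * b ^ 2 * u
      + 9544187597851197440 * b ^ 3 :=
    fun u hu => by positivity
  refine (key (1 - b) (sub_nonneg.2 h1)).trans (le_of_eq ?_)
  ring

theorem T1_1_7 {b : ℝ} (h0 : 0 ≤ b) (h1 : b ≤ 1) : 0 ≤ (10495605881361989632 - 15064129288481538048 * b + 2519438075011727360 * b ^ 2 + 7022265797836800000 * b ^ 3) := by
  have key : ∀ u : ℝ, 0 ≤ u → 0 ≤ 10495605881361989632 * u ^ 3 + 16422688355604430848 * b * u ^ 2 + 3877997142134620160 * b ^ 2 * u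
      + 4973180465728978944 * b ^ 3 :=
    fun u hu => by positivity
  refine (key (1 - b) (sub_nonneg.2 h1)).trans (le_of_eq ?_)
  ring

theorem T1_1_8 {b : ℝ} (h0 : 0 ≤ b) (h1 : b ≤ 1) : 0 ≤ (3142541921928347648 - 4974909282018394112 * b + 1349649389788856320 * b ^ 2 + 1927277523763200000 * b ^ 3) := by
  have key : ∀ u : ℝ, 0 ≤ u → 0 ≤ 3142541921928347648 * u ^ 3 + 4452716483766648832 * b * u ^ 2 + 827456591537111040 * b ^ 2 * u
      + 1444559553462009856 * b ^ 3 :=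
    fun u hu => by positivity
  refine (key (1 - b) (sub_nonneg.2 h1)).trans (le_of_eq ?_)
  ring

theorem T1_1_9 {b : ℝ} (h0 : 0 ≤ b) (h1 : b ≤ 1) : 0 ≤ (428908373044363264 - 733421550295842816 * b + 249151821363281920 * b ^ 2 + 234329053593600000 * b ^ 3) := by
  have key : ∀ u : ℝ, 0 ≤ u → 0 ≤ 428908373044363264 * u ^ 3 + 553303568837246976 * b * u ^ 2 + 69033839904686080 * b ^ 2 * u
      + 178967697705402368 * b ^ 3 :=
    fun u hu => by positivity
  refine (key (1 - b) (sub_nonneg.2 h1)).trans (le_of_eq ?_)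
  ring

theorem T1_1 {t b : ℝ} (h0 : 0 ≤ b) (h1 : b ≤ 1) (hl : (13 : ℝ) / 20 ≤ t) (hr : t ≤ (6 : ℝ) / 5) :
    0 ≤ T t (1 + b) b := by
  have hA : 0 ≤ (20 * t - 13) := by linarith
  have hB : 0 ≤ (24 - 20 * t) := by linarith
  refine nonneg_of_mul_nonneg_right (a := (241453843558400000000 : ℝ)) ?_ (by norm_num)
  refine le_of_le_of_eq ?_ (show (142517085309218309 - 94413841654527616 * b - 125480959175571840 * b ^ 2 + 89857629388800000 * b ^ 3) * (24 - 20 * t) ^ 9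
      + (1355920850977484600 - 985169745823534720 * b - 1123153621909528320 * b ^ 2 + 918656557056000000 * b ^ 3) * (20 * t - 13) * (24 - 20 * t) ^ 8
      + (5809650827998242304 - 4662189615961926656 * b - 4227280253236586880 * b ^ 2 + 4146232327372800000 * b ^ 3) * (20 * t - 13) ^ 2 * (24 - 20 * t) ^ 7
      + (14732618676909597696 - 13179167805627700224 * b - 8575011721318824960 * b ^ 2 + 10851962565427200000 * b ^ 3) * (20 * t - 13) ^ 3 * (24 - 20 * t) ^ 6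
      + (24401046173818554368 - 24539403292571041792 * b - 9745281090088949760 * b ^ 2 + 18163602409881600000 * b ^ 3) * (20 * t - 13) ^ 4 * (24 - 20 * t) ^ 5
      + (27415427451431575552 - 31145257142835150848 * b - 5244170915149701120 * b ^ 2 + 20172807335116800000 * b ^ 3) * (20 * t - 13) ^ 5 * (24 - 20 * t) ^ 4
      + (20932719129375866880 - 26836229500857876480 * b + 574646550709207040 * b ^ 2 + 14873051418624000000 * b ^ 3) * (20 * t - 13) ^ 6 * (24 - 20 * t) ^ 3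
      + (10495605881361989632 - 15064129288481538048 * b + 2519438075011727360 * b ^ 2 + 7022265797836800000 * b ^ 3) * (20 * t - 13) ^ 7 * (24 - 20 * t) ^ 2
      + (3142541921928347648 - 4974909282018394112 * b + 1349649389788856320 * b ^ 2 + 1927277523763200000 * b ^ 3) * (20 * t - 13) ^ 8 * (24 - 20 * t)
      + (428908373044363264 - 733421550295842816 * b + 249151821363281920 * b ^ 2 + 234329053593600000 * b ^ 3) * (20 * t - 13) ^ 9
      = (241453843558400000000 : ℝ) * (T t (1 + b) b) by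
    simp only [T, c00, c01, c02, c10, c11, c20, c21]; ring)
  have := T1_1_0 h0 h1
  have := T1_1_1 h0 h1
  have := T1_1_2 h0 h1
  have := T1_1_3 h0 h1
  have := T1_1_4 h0 h1
  have := T1_1_5 h0 h1
  have := T1_1_6 h0 h1
  have := T1_1_7 h0 h1
  have := T1_1_8 h0 h1
  have := T1_1_9 h0 h1
  positivity

theorem T1_2_0 {b : ℝ} (h0 : 0 ≤ b) (h1 : b ≤ 1) : 0 ≤ (1636155597856 - 2797781182464 * b + 950438771680 * b ^ 2 + 893894400000 * b ^ 3) := by
  have key : ∀ u : ℝ, 0 ≤ u → 0 ≤ 1636155597856 * u ^ 3 + 2110685611104 * b * u ^ 2 + 263343200320 * b ^ 2 * u + 682707587072 * b ^ 3 :=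
    fun u hu => by positivity
  refine (key (1 - b) (sub_nonneg.2 h1)).trans (le_of_eq ?_)
  ring

theorem T1_2_1 {b : ℝ} (h0 : 0 ≤ b) (h1 : b ≤ 1) : 0 ≤ (18707297550176 - 34201496543744 * b + 13507323648160 * b ^ 2 + 9053150400000 * b ^ 3) := by
  have key : ∀ u : ℝ, 0 ≤ u → 0 ≤ 18707297550176 * u ^ 3 + 21920396106784 * b * u ^ 2 + 1226223211200 * b ^ 2 * u + 7066275054592 * b ^ 3 :=
    fun u hu => by positivity
  refine (key (1 - b) (sub_nonneg.2 h1)).trans (le_of_eq ?_)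
  ring

theorem T1_2_2 {b : ℝ} (h0 : 0 ≤ b) (h1 : b ≤ 1) : 0 ≤ (97180880889280 - 186354133831680 * b + 79425409993280 * b ^ 2 + 40566960000000 * b ^ 3) := by
  have key : ∀ u : ℝ, 0 ≤ u → 0 ≤ 97180880889280 * u ^ 4 + 202369389725440 * b * u ^ 3 + 103448293833920 * b ^ 2 * u ^ 2 + 29078902048640 * b ^ 3 * u
      + 30819117050880 * b ^ 4 :=
    fun u hu => by positivity
  refine (key (1 - b) (sub_nonneg.2 h1)).trans (le_of_eq ?_)
  ring

theorem T1_2_3 {b : ℝ} (h0 : 0 ≤ b) (h1 : b ≤ 1) : 0 ≤ (300633169243200 - 592681628774400 * b + 259957406628800 * b ^ 2 + 105599088000000 * b ^ 3) := by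
  have key : ∀ u : ℝ, 0 ≤ u → 0 ≤ 300633169243200 * u ^ 4 + 609851048198400 * b * u ^ 3 + 285711535764800 * b ^ 2 * u ^ 2 + 50001691907200 * b ^ 3 * u
      + 73508035097600 * b ^ 4 :=
    fun u hu => by positivity
  refine (key (1 - b) (sub_nonneg.2 h1)).trans (le_of_eq ?_)
  ring

theorem T1_2_4 {b : ℝ} (h0 : 0 ≤ b) (h1 : b ≤ 1) : 0 ≤ (609353232064000 - 1210381689344000 * b + 528959368512000 * b ^ 2 + 176034096000000 * b ^ 3) := by
  have key : ∀ u : ℝ, 0 ≤ u → 0 ≤ 609353232064000 * u ^ 4 + 1227031238912000 * b * u ^ 3 + 553933692864000 * b ^ 2 * u ^ 2 + 40220693248000 * b ^ 3 * u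
      + 103965007232000 * b ^ 4 :=
    fun u hu => by positivity
  refine (key (1 - b) (sub_nonneg.2 h1)).trans (le_of_eq ?_)
  ring

theorem T1_2_5 {b : ℝ} (h0 : 0 ≤ b) (h1 : b ≤ 1) : 0 ≤ (837629324000000 - 1643871091840000 * b + 699635604000000 * b ^ 2 + 194937926400000 * b ^ 3) := by
  have key : ∀ u : ℝ, 0 ≤ u → 0 ≤ 837629324000000 * u ^ 4 + 1706646204160000 * b * u ^ 3 + 793798272480000 * b ^ 2 * u ^ 2 + 13113154880000 * b ^ 3 * u
      + 88331762560000 * b ^ 4 :=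
    fun u hu => by positivity
  refine (key (1 - b) (sub_nonneg.2 h1)).trans (le_of_eq ?_)
  ring

theorem T1_2_6 {b : ℝ} (h0 : 0 ≤ b) (h1 : b ≤ 1) : 0 ≤ (779229258600000 - 1483412236800000 * b + 604787727000000 * b ^ 2 + 143438198400000 * b ^ 3) := by
  have key : ∀ u : ℝ, 0 ≤ u → 0 ≤ 779229258600000 * u ^ 4 + 1633504797600000 * b * u ^ 3 + 829926568200000 * b ^ 2 * u ^ 2 + 19693976400000 * b ^ 3 * u
      + 44042947200000 * b ^ 4 :=
    fun u hu => by positivity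
  refine (key (1 - b) (sub_nonneg.2 h1)).trans (le_of_eq ?_)
  ring

theorem T1_2_7 {b : ℝ} (h0 : 0 ≤ b) (h1 : b ≤ 1) : 0 ≤ (471982519000000 - 857141504000000 * b + 330726825000000 * b ^ 2 + 67639824000000 * b ^ 3) := by
  have key : ∀ u : ℝ, 0 ≤ u → 0 ≤ 471982519000000 * u ^ 3 + 558806053000000 * b * u ^ 2 + 32391374000000 * b ^ 2 * u + 13207664000000 * b ^ 3 :=
    fun u hu => by positivity
  refine (key (1 - b) (sub_nonneg.2 h1)).trans (le_of_eq ?_)
  ring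

theorem T1_2_8 {b : ℝ} (h0 : 0 ≤ b) (h1 : b ≤ 1) : 0 ≤ (168509067500000 - 287666080000000 * b + 104107252500000 * b ^ 2 + 18552240000000 * b ^ 3) := by
  have key : ∀ u : ℝ, 0 ≤ u → 0 ≤ 168509067500000 * u ^ 3 + 217861122500000 * b * u ^ 2 + 34302295000000 * b ^ 2 * u + 3502480000000 * b ^ 3 :=
    fun u hu => by positivity
  refine (key (1 - b) (sub_nonneg.2 h1)).trans (le_of_eq ?_)
  ring

theorem T1_2_9 {b : ℝ} (h0 : 0 ≤ b) (h1 : b ≤ 1) : 0 ≤ (26956962500000 - 42716200000000 * b + 14403037500000 * b ^ 2 + 2255400000000 * b ^ 3) := by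
  have key : ∀ u : ℝ, 0 ≤ u → 0 ≤ 26956962500000 * u ^ 3 + 38154687500000 * b * u ^ 2 + 9841525000000 * b ^ 2 * u + 899200000000 * b ^ 3 :=
    fun u hu => by positivity
  refine (key (1 - b) (sub_nonneg.2 h1)).trans (le_of_eq ?_)
  ring

theorem T1_2 {t b : ℝ} (h0 : 0 ≤ b) (h1 : b ≤ 1) (hl : (6 : ℝ) / 5 ≤ t) (hr : t ≤ (2 : ℝ)) :
    0 ≤ T t (1 + b) b := by
  have hA : 0 ≤ (5 * t - 6) := by linarith
  have hB : 0 ≤ (10 - 5 * t) := by linarith
  refine nonneg_of_mul_nonneg_right (a := (102400000000 : ℝ)) ?_ (by norm_num)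
  refine le_of_le_of_eq ?_ (show (1636155597856 - 2797781182464 * b + 950438771680 * b ^ 2 + 893894400000 * b ^ 3) * (10 - 5 * t) ^ 9
      + (18707297550176 - 34201496543744 * b + 13507323648160 * b ^ 2 + 9053150400000 * b ^ 3) * (5 * t - 6) * (10 - 5 * t) ^ 8
      + (97180880889280 - 186354133831680 * b + 79425409993280 * b ^ 2 + 40566960000000 * b ^ 3) * (5 * t - 6) ^ 2 * (10 - 5 * t) ^ 7
      + (300633169243200 - 592681628774400 * b + 259957406628800 * b ^ 2 + 105599088000000 * b ^ 3) * (5 * t - 6) ^ 3 * (10 - 5 * t) ^ 6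
      + (609353232064000 - 1210381689344000 * b + 528959368512000 * b ^ 2 + 176034096000000 * b ^ 3) * (5 * t - 6) ^ 4 * (10 - 5 * t) ^ 5
      + (837629324000000 - 1643871091840000 * b + 699635604000000 * b ^ 2 + 194937926400000 * b ^ 3) * (5 * t - 6) ^ 5 * (10 - 5 * t) ^ 4
      + (779229258600000 - 1483412236800000 * b + 604787727000000 * b ^ 2 + 143438198400000 * b ^ 3) * (5 * t - 6) ^ 6 * (10 - 5 * t) ^ 3
      + (471982519000000 - 857141504000000 * b + 330726825000000 * b ^ 2 + 67639824000000 * b ^ 3) * (5 * t - 6) ^ 7 * (10 - 5 * t) ^ 2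
      + (168509067500000 - 287666080000000 * b + 104107252500000 * b ^ 2 + 18552240000000 * b ^ 3) * (5 * t - 6) ^ 8 * (10 - 5 * t)
      + (26956962500000 - 42716200000000 * b + 14403037500000 * b ^ 2 + 2255400000000 * b ^ 3) * (5 * t - 6) ^ 9
      = (102400000000 : ℝ) * (T t (1 + b) b) by
    simp only [T, c00, c01, c02, c10, c11, c20, c21]; ring)
  have := T1_2_0 h0 h1
  have := T1_2_1 h0 h1
  have := T1_2_2 h0 h1
  have := T1_2_3 h0 h1
  have := T1_2_4 h0 h1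
  have := T1_2_5 h0 h1
  have := T1_2_6 h0 h1
  have := T1_2_7 h0 h1
  have := T1_2_8 h0 h1
  have := T1_2_9 h0 h1
  positivity

theorem T1_3_0 {b : ℝ} (h0 : 0 ≤ b) (h1 : b ≤ 1) : 0 ≤ (69009824 - 109353472 * b + 36871776 * b ^ 2 + 5773824 * b ^ 3) := by
  have key : ∀ u : ℝ, 0 ≤ u → 0 ≤ 69009824 * u ^ 3 + 97676000 * b * u ^ 2 + 25194304 * b ^ 2 * u + 2301952 * b ^ 3 :=
    fun u hu => by positivity
  refine (key (1 - b) (sub_nonneg.2 h1)).trans (le_of_eq ?_)
  ring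

theorem T1_3_1 {b : ℝ} (h0 : 0 ≤ b) (h1 : b ≤ 1) : 0 ≤ (237131504 - 309695104 * b + 81664272 * b ^ 2 + 5588352 * b ^ 3) := by
  have key : ∀ u : ℝ, 0 ≤ u → 0 ≤ 237131504 * u ^ 3 + 401699408 * b * u ^ 2 + 173668576 * b ^ 2 * u + 14689024 * b ^ 3 :=
    fun u hu => by positivity
  refine (key (1 - b) (sub_nonneg.2 h1)).trans (le_of_eq ?_)
  ring

theorem T1_3_2 {b : ℝ} (h0 : 0 ≤ b) (h1 : b ≤ 1) : 0 ≤ (377442516 - 374384256 * b + 65512620 * b ^ 2 + 1665216 * b ^ 3) := by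
  have key : ∀ u : ℝ, 0 ≤ u → 0 ≤ 377442516 * u ^ 3 + 757943292 * b * u ^ 2 + 449071656 * b ^ 2 * u + 70236096 * b ^ 3 :=
    fun u hu => by positivity
  refine (key (1 - b) (sub_nonneg.2 h1)).trans (le_of_eq ?_)
  ring

theorem T1_3_3 {b : ℝ} (h0 : 0 ≤ b) (h1 : b ≤ 1) : 0 ≤ (353896672 - 250444256 * b + 25760640 * b ^ 2 + 157248 * b ^ 3) := by
  have key : ∀ u : ℝ, 0 ≤ u → 0 ≤ 353896672 * u ^ 3 + 811245760 * b * u ^ 2 + 586562144 * b ^ 2 * u + 129370304 * b ^ 3 :=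
    fun u hu => by positivity
  refine (key (1 - b) (sub_nonneg.2 h1)).trans (le_of_eq ?_)
  ring

theorem T1_3_4 {b : ℝ} (h0 : 0 ≤ b) (h1 : b ≤ 1) : 0 ≤ (212226040 - 101937344 * b + 5932200 * b ^ 2) := by
  have key : ∀ u : ℝ, 0 ≤ u → 0 ≤ 212226040 * u ^ 2 + 322514736 * b * u + 116220896 * b ^ 2 :=
    fun u hu => by positivity
  refine (key (1 - b) (sub_nonneg.2 h1)).trans (le_of_eq ?_)
  ring

theorem T1_3_5 {b : ℝ} (h0 : 0 ≤ b) (h1 : b ≤ 1) : 0 ≤ (83478312 - 26237952 * b + 911496 * b ^ 2) := by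
  have key : ∀ u : ℝ, 0 ≤ u → 0 ≤ 83478312 * u ^ 2 + 140718672 * b * u + 58151856 * b ^ 2 :=
    fun u hu => by positivity
  refine (key (1 - b) (sub_nonneg.2 h1)).trans (le_of_eq ?_)
  ring

theorem T1_3_6 {b : ℝ} (h0 : 0 ≤ b) (h1 : b ≤ 1) : 0 ≤ (21421328 - 4238416 * b + 90992 * b ^ 2) := by
  have key : ∀ u : ℝ, 0 ≤ u → 0 ≤ 21421328 * u ^ 2 + 38604240 * b * u + 17273904 * b ^ 2 :=
    fun u hu => by positivity
  refine (key (1 - b) (sub_nonneg.2 h1)).trans (le_of_eq ?_)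
  ring

theorem T1_3_7 {b : ℝ} (h0 : 0 ≤ b) (h1 : b ≤ 1) : 0 ≤ (3457696 - 397056 * b + 4136 * b ^ 2) := by
  have key : ∀ u : ℝ, 0 ≤ u → 0 ≤ 3457696 * u ^ 2 + 6518336 * b * u + 3064776 * b ^ 2 :=
    fun u hu => by positivity
  refine (key (1 - b) (sub_nonneg.2 h1)).trans (le_of_eq ?_)
  ring

theorem T1_3_8 {b : ℝ} (h0 : 0 ≤ b) (h1 : b ≤ 1) : 0 ≤ (319506 - 16544 * b) := by
  have key : ∀ u : ℝ, 0 ≤ u → 0 ≤ 319506 * u + 302962 * b :=
    fun u hu => by positivity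
  refine (key (1 - b) (sub_nonneg.2 h1)).trans (le_of_eq ?_)
  ring

theorem T1_3_9 {b : ℝ} (_h0 : 0 ≤ b) (h1 : b ≤ 1) : 0 ≤ (12925) := by
  have key : ∀ u : ℝ, 0 ≤ u → 0 ≤ 12925 :=
    fun u hu => by positivity
  refine (key (1 - b) (sub_nonneg.2 h1)).trans (le_of_eq ?_)
  ring

theorem T1_3 {t b : ℝ} (h0 : 0 ≤ b) (h1 : b ≤ 1) (hl : (2 : ℝ) ≤ t) :
    0 ≤ T t (1 + b) b := by
  have hA : 0 ≤ (t - 2 / 1) := by linarith
  refine nonneg_of_mul_nonneg_right (a := (1 : ℝ)) ?_ (by norm_num)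
  refine le_of_le_of_eq ?_ (show (69009824 - 109353472 * b + 36871776 * b ^ 2 + 5773824 * b ^ 3)
      + (237131504 - 309695104 * b + 81664272 * b ^ 2 + 5588352 * b ^ 3) * (t - 2 / 1)
      + (377442516 - 374384256 * b + 65512620 * b ^ 2 + 1665216 * b ^ 3) * (t - 2 / 1) ^ 2
      + (353896672 - 250444256 * b + 25760640 * b ^ 2 + 157248 * b ^ 3) * (t - 2 / 1) ^ 3
      + (212226040 - 101937344 * b + 5932200 * b ^ 2) * (t - 2 / 1) ^ 4
      + (83478312 - 26237952 * b + 911496 * b ^ 2) * (t - 2 / 1) ^ 5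
      + (21421328 - 4238416 * b + 90992 * b ^ 2) * (t - 2 / 1) ^ 6
      + (3457696 - 397056 * b + 4136 * b ^ 2) * (t - 2 / 1) ^ 7
      + (319506 - 16544 * b) * (t - 2 / 1) ^ 8
      + (12925) * (t - 2 / 1) ^ 9
      = (1 : ℝ) * (T t (1 + b) b) by
    simp only [T, c00, c01, c02, c10, c11, c20, c21]; ring)
  have := T1_3_0 h0 h1
  have := T1_3_1 h0 h1
  have := T1_3_2 h0 h1
  have := T1_3_3 h0 h1
  have := T1_3_4 h0 h1
  have := T1_3_5 h0 h1
  have := T1_3_6 h0 h1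
  have := T1_3_7 h0 h1
  have := T1_3_8 h0 h1
  have := T1_3_9 h0 h1
  positivity

theorem N1_0 {t : ℝ} (hl : (0 : ℝ) ≤ t) (hr : t ≤ (1 : ℝ) / 2) :
    0 ≤ num t - rem t := by
  have hA : 0 ≤ (2 * t - 0) := by linarith
  have hB : 0 ≤ (1 - 2 * t) := by linarith
  refine nonneg_of_mul_nonneg_right (a := (32 : ℝ)) ?_ (by norm_num)
  refine le_of_le_of_eq ?_ (show 880000 * (1 - 2 * t) ^ 6
      + 4311072 * (2 * t - 0) * (1 - 2 * t) ^ 5
      + 8313664 * (2 * t - 0) ^ 2 * (1 - 2 * t) ^ 4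
      + 7906408 * (2 * t - 0) ^ 3 * (1 - 2 * t) ^ 3
      + 3789714 * (2 * t - 0) ^ 4 * (1 - 2 * t) ^ 2
      + 845704 * (2 * t - 0) ^ 5 * (1 - 2 * t)
      + 80323 * (2 * t - 0) ^ 6
      = (32 : ℝ) * (num t - rem t) by
    simp only [num, rem]; ring)
  positivity

theorem N1_1 {t : ℝ} (hl : (1 : ℝ) / 2 ≤ t) (hr : t ≤ (7 : ℝ) / 10) :
    0 ≤ num t - rem t := by
  have hA : 0 ≤ (10 * t - 5) := by linarith
  have hB : 0 ≤ (7 - 10 * t) := by linarith
  refine nonneg_of_mul_nonneg_right (a := (32000000 : ℝ)) ?_ (by norm_num)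
  refine le_of_le_of_eq ?_ (show 1255046875 * (7 - 10 * t) ^ 6
      + 5256743750 * (10 * t - 5) * (7 - 10 * t) ^ 5
      + 9373113125 * (10 * t - 5) ^ 2 * (7 - 10 * t) ^ 4
      + 10427820500 * (10 * t - 5) ^ 3 * (7 - 10 * t) ^ 3
      + 8818728725 * (10 * t - 5) ^ 4 * (7 - 10 * t) ^ 2
      + 5094499910 * (10 * t - 5) ^ 5 * (7 - 10 * t)
      + 1332208523 * (10 * t - 5) ^ 6
      = (32000000 : ℝ) * (num t - rem t) by
    simp only [num, rem]; ring)
  positivity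

theorem N1_2 {t : ℝ} (hl : (7 : ℝ) / 10 ≤ t) :
    0 ≤ num t - rem t := by
  have hA : 0 ≤ (t - 7 / 10) := by linarith
  refine nonneg_of_mul_nonneg_right (a := (500000 : ℝ)) ?_ (by norm_num)
  refine le_of_le_of_eq ?_ (show 1332208523
      + 14493756140 * (t - 7 / 10)
      + 83233925500 * (t - 7 / 10) ^ 2
      + 68283220000 * (t - 7 / 10) ^ 3
      + 25095450000 * (t - 7 / 10) ^ 4
      + 5273400000 * (t - 7 / 10) ^ 5
      + 517000000 * (t - 7 / 10) ^ 6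
      = (500000 : ℝ) * (num t - rem t) by
    simp only [num, rem]; ring)
  positivity

end Vale.Agent.P219.Nine
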